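import Mathlib

/-!
# P088: algebra of the symbol of a mode
-/

namespace Vale.Agent.P088

noncomputable section

variable {𝔸 : Type*} [CStarAlgebra 𝔸] {ι : Type*} [Fintype ι]

theorem star_skew_sum {α : ℂ} (hα : star α = -α) (w : ι → ℝ) (b : ι → 𝔸) (hb : ∀ i, star (b i) = -b i) :
    star (α • ∑ i, (w i : ℂ) • b i) = α • ∑ i, (w i : ℂ) • b i := by
  simp [star_smul, star_sum, hα, hb, Finset.sum_neg_distrib]

theorem star_skew_quad {α : ℂ} (hα : star α = α) (w : ι → ι → ℝ) (hw : ∀ i j, w i j = w j i) (b : ι → 𝔸)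
    (hb : ∀ i, star (b i) = -b i) :
    star (α • ∑ j, ∑ i, (w i j : ℂ) • (b j * b i)) = α • ∑ j, ∑ i, (w i j : ℂ) • (b j * b i) := by
  rw [star_smul, hα, star_sum]
  simp only [star_sum, star_smul, star_mul, hb, neg_mul_neg, Complex.star_def, Complex.conj_ofReal]
  rw [Finset.sum_comm]
  exact congrArg _ (Finset.sum_congr rfl fun i _ => Finset.sum_congr rfl fun j _ => by rw [hw])

theorem star_shift {μ : ℂ} (hμ : star μ = -μ) {a : 𝔸} (ha : star a = -a) :
    star (μ • (1 : 𝔸) + a) = -(μ • (1 : 𝔸) + a) := by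
  rw [star_add, star_smul, star_one, hμ, ha]; module

theorem symbol_expand [DecidableEq ι] (c : ℂ) (v : ℂ) (H : ι → ι → ℂ) (i₀ : ι) (hH : ∀ i, H i₀ i = H i i₀)
    (b : ι → 𝔸) :
    ∑ j, ((if j = i₀ then c else 0) • (1 : 𝔸) + b j) *
        ∑ i, (v * H i j) • ((if i = i₀ then c else 0) • (1 : 𝔸) + b i) =
      v • ((c * c * H i₀ i₀) • (1 : 𝔸) + (2 * c) • (∑ i, H i i₀ • b i) +
        ∑ j, ∑ i, H i j • (b j * b i)) := by
  have inner : ∀ j, ∑ i, (v * H i j) • ((if i = i₀ then c else 0) • (1 : 𝔸) + b i) =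
      v • ((c * H i₀ j) • (1 : 𝔸) + ∑ i, H i j • b i) := by
    intro j
    simp only [smul_add, Finset.sum_add_distrib, Finset.smul_sum, smul_smul, mul_ite, mul_zero, ite_smul,
      zero_smul, smul_ite, smul_zero, Finset.sum_ite_eq', Finset.mem_univ, if_true]
    congr 1
    module
  simp only [inner, mul_smul_comm, ← Finset.smul_sum]
  congr 1
  have e : ∀ j, ((if j = i₀ then c else 0) • (1 : 𝔸) + b j) * ((c * H i₀ j) • (1 : 𝔸) + ∑ i, H i j • b i) =
      (if j = i₀ then (c * (c * H i₀ j)) • (1 : 𝔸) + c • ∑ i, H i j • b i else 0) +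
        (c • (H i₀ j • b j) + ∑ i, H i j • (b j * b i)) := by
    intro j
    have hbm : b j * ((c * H i₀ j) • (1 : 𝔸) + ∑ i, H i j • b i) =
        c • (H i₀ j • b j) + ∑ i, H i j • (b j * b i) := by
      rw [mul_add, mul_smul_comm, mul_one, Finset.mul_sum, smul_smul]
      simp only [mul_smul_comm]
    rw [add_mul, hbm]
    congr 1
    split_ifs
    · rw [smul_mul_assoc, one_mul, smul_add, smul_smul]
    · rw [zero_smul, zero_mul]
  simp only [e, Finset.sum_add_distrib, Finset.sum_ite_eq', Finset.mem_univ, if_true, ← Finset.smul_sum]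
  rw [show ∑ j, H i₀ j • b j = ∑ i, H i i₀ • b i from Finset.sum_congr rfl fun j _ => by rw [hH]]
  module

end

end Vale.Agent.P088

namespace Vale.Agent.P088

noncomputable section

variable {𝔸 : Type*} [CStarAlgebra 𝔸] {ι : Type*} [Fintype ι]

theorem quad_shift (H : ι → ι → ℂ) (hH : ∀ i j, H i j = H j i) (μ : ι → ℂ) (a : ι → 𝔸) :
    ∑ j, ∑ i, H i j • ((μ j • (1 : 𝔸) + a j) * (μ i • (1 : 𝔸) + a i)) =
      (∑ j, ∑ i, H i j * (μ j * μ i)) • (1 : 𝔸) + (2 : ℂ) • (∑ j, (∑ i, H i j * μ i) • a j) +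
        ∑ j, ∑ i, H i j • (a j * a i) := by
  have e : ∀ i j, H i j • ((μ j • (1 : 𝔸) + a j) * (μ i • (1 : 𝔸) + a i)) =
      (H i j * (μ j * μ i)) • (1 : 𝔸) + (H i j * μ i) • a j + (H i j * μ j) • a i + H i j • (a j * a i) := by
    intro i j
    simp only [add_mul, mul_add, smul_mul_assoc, mul_smul_comm, one_mul, mul_one]
    module
  simp only [e, Finset.sum_add_distrib, ← Finset.sum_smul]
  have h2 : ∑ j, ∑ i, (H i j * μ j) • a i = ∑ j, (∑ i, H i j * μ i) • a j := by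
    rw [Finset.sum_comm]
    refine Finset.sum_congr rfl fun i _ => ?_
    rw [Finset.sum_smul]
    exact Finset.sum_congr rfl fun j _ => by rw [hH]
  rw [h2]
  module

end

end Vale.Agent.P088
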