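import Mathlib

/-!
# P088: energy data of a metric and a connection on a cylinder over a torus

A point of `[0, L] × ℝ^d` is a vector in `Fin (d + 1) → ℝ` whose coordinate `0` is the height.
Functions on the cylinder over the torus `ℝ^d / ℤ^d` are functions periodic in the other coordinates.
-/

open MeasureTheory

namespace Vale.Agent.P088

noncomputable section

/-- The fibre. -/
abbrev Fibre (N : ℕ) : Type := EuclideanSpace ℂ (Fin N)

/-- Its operators. -/
abbrev Op (N : ℕ) : Type := Fibre N →L[ℂ] Fibre N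

/-- Periodicity with period one in every horizontal direction. -/
def Periodic {d : ℕ} {E : Type*} (u : (Fin (d + 1) → ℝ) → E) : Prop :=
  ∀ (z : Fin (d + 1) → ℝ) (j : Fin d), u (z + Pi.single j.succ 1) = u z

/-- The covariant derivative in the `j`-th horizontal direction. -/
def cov {d N : ℕ} (a : Fin d → ℝ → Op N) (u : (Fin (d + 1) → ℝ) → Fibre N) (z : Fin (d + 1) → ℝ)
    (j : Fin d) : Fibre N :=
  fderiv ℝ u z (Pi.single j.succ 1) + a j (z 0) (u z)

/-- The density `|d_A u|²` times the volume density, for the metric `dt² + G(t)` and the connection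
`∑ j, a_j(t) dx_j`. -/
def dens {d N : ℕ} (G : ℝ → Matrix (Fin d) (Fin d) ℝ) (a : Fin d → ℝ → Op N)
    (u : (Fin (d + 1) → ℝ) → Fibre N) (z : Fin (d + 1) → ℝ) : ℝ :=
  Real.sqrt (G (z 0)).det * (‖fderiv ℝ u z (Pi.single 0 1)‖ ^ 2 +
    ∑ i, ∑ j, (G (z 0))⁻¹ i j * (inner ℂ (cov a u z i) (cov a u z j)).re)

/-- One period of the cylinder of height `L`. -/
def box (d : ℕ) (L : ℝ) : Set (Fin (d + 1) → ℝ) := Set.Icc 0 (Fin.cons L 1)

/-- The energy of a section. -/
def energy {d N : ℕ} (L : ℝ) (G : ℝ → Matrix (Fin d) (Fin d) ℝ) (a : Fin d → ℝ → Op N)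
    (u : (Fin (d + 1) → ℝ) → Fibre N) : ℝ :=
  ∫ z in box d L, dens G a u z

/-- The least energy of a periodic `C¹` section equal to `f` at height `0` and to zero at height `L`. -/
def minEnergy {d N : ℕ} (L : ℝ) (G : ℝ → Matrix (Fin d) (Fin d) ℝ) (a : Fin d → ℝ → Op N)
    (f : (Fin d → ℝ) → Fibre N) : ℝ :=
  sInf {E | ∃ u : (Fin (d + 1) → ℝ) → Fibre N, ContDiff ℝ 1 u ∧ Periodic u ∧
    (∀ x : Fin d → ℝ, u (Fin.cons 0 x) = f x) ∧ (∀ x : Fin d → ℝ, u (Fin.cons L x) = 0) ∧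
    E = energy L G a u}

/-- Two cylinders have the same quadratic form on smooth periodic data carried by their end at
height `0`. -/
def SameData {d N : ℕ} (L₁ : ℝ) (G₁ : ℝ → Matrix (Fin d) (Fin d) ℝ) (a₁ : Fin d → ℝ → Op N)
    (L₂ : ℝ) (G₂ : ℝ → Matrix (Fin d) (Fin d) ℝ) (a₂ : Fin d → ℝ → Op N) : Prop :=
  ∀ f : (Fin d → ℝ) → Fibre N, (∀ n : ℕ, ContDiff ℝ n f) →
    (∀ (x : Fin d → ℝ) (j : Fin d), f (x + Pi.single j 1) = f x) →
    minEnergy L₁ G₁ a₁ f = minEnergy L₂ G₂ a₂ f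

end

end Vale.Agent.P088
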