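import Mathlib
import Vale.Agent.P088.Cyl.Defs

/-!
# P088: the divergence theorem on a periodic cylinder
-/

open MeasureTheory Set Filter
open scoped Topology ComplexInnerProductSpace

namespace Vale.Agent.P088

noncomputable section

variable {d N : ℕ}

/-- The open period of the cylinder. -/
def cell (d : ℕ) (L : ℝ) : Set (Fin (d + 1) → ℝ) :=
  univ.pi fun i => Ioo ((0 : Fin (d + 1) → ℝ) i) ((Fin.cons L 1 : Fin (d + 1) → ℝ) i)

theorem cell_ae_eq (L : ℝ) : cell d L =ᵐ[volume] box d L := by
  simp only [volume_pi]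
  exact Measure.univ_pi_Ioo_ae_eq_Icc (μ := fun _ : Fin (d + 1) => volume)

theorem height_mem_cell {L : ℝ} {z : Fin (d + 1) → ℝ} (hz : z ∈ cell d L) : z 0 ∈ Ioo 0 L := by
  simpa using hz 0 (mem_univ _)

theorem height_mem_box {L : ℝ} {z : Fin (d + 1) → ℝ} (hz : z ∈ box d L) : z 0 ∈ Icc 0 L :=
  ⟨by simpa using hz.1 0, by simpa using hz.2 0⟩

theorem isCompact_box (L : ℝ) : IsCompact (box d L) := isCompact_Icc

theorem measurableSet_box (L : ℝ) : MeasurableSet (box d L) := measurableSet_Icc

theorem cons_periodic (z : Fin d → ℝ) (c : ℝ) (j : Fin d) :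
    (Fin.cons c z : Fin (d + 1) → ℝ) + Pi.single j.succ 1 = Fin.cons c (z + Pi.single j 1) := by
  funext i
  induction i using Fin.cases with
  | zero => simp [Pi.single_apply, eq_comm, Fin.succ_ne_zero]
  | succ i => simp [Pi.single_apply, Fin.succ_inj]

/-- The flux identity on a periodic cylinder. -/
theorem integral_div {L : ℝ} (hL : 0 ≤ L) {F : Fin (d + 1) → (Fin (d + 1) → ℝ) → ℝ}
    {g : (Fin (d + 1) → ℝ) → ℝ} (hF : ∀ i, Continuous (F i)) (hg : ContinuousOn g (box d L))
    (hd : ∀ z ∈ cell d L, ∀ i, DifferentiableAt ℝ (F i) z)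
    (he : ∀ z ∈ cell d L, ∑ i, fderiv ℝ (F i) z (Pi.single i 1) = g z)
    (hper : ∀ (j : Fin d) z, F j.succ (z + Pi.single j.succ 1) = F j.succ z) :
    ∫ z in box d L, g z =
      (∫ x in Icc (0 : Fin d → ℝ) 1, F 0 (Fin.cons L x)) - ∫ x in Icc (0 : Fin d → ℝ) 1, F 0 (Fin.cons 0 x) := by
  have hle : (0 : Fin (d + 1) → ℝ) ≤ Fin.cons L 1 := fun i => by
    induction i using Fin.cases with
    | zero => simpa using hL
    | succ i => simp
  have hae := cell_ae_eq (d := d) L
  have hm : MeasurableSet (cell d L) := MeasurableSet.univ_pi fun _ => measurableSet_Ioo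
  have hint : IntegrableOn (fun z => ∑ i, fderiv ℝ (F i) z (Pi.single i 1)) (box d L) := by
    have h1 : IntegrableOn g (cell d L) := (hg.integrableOn_compact (isCompact_box L)).congr_set_ae hae
    exact (h1.congr_fun (fun z hz => (he z hz).symm) hm).congr_set_ae hae.symm
  have h := integral_divergence_of_hasFDerivAt_off_countable' (0 : Fin (d + 1) → ℝ) (Fin.cons L 1) hle F
    (fun i z => fderiv ℝ (F i) z) ∅ countable_empty (fun i => (hF i).continuousOn)
    (fun z hz i => (hd z hz.1 i).hasFDerivAt) hint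
  have hg' : ∫ z in box d L, g z = ∫ z in box d L, ∑ i, fderiv ℝ (F i) z (Pi.single i 1) := by
    rw [← setIntegral_congr_set hae, ← setIntegral_congr_set hae]
    exact setIntegral_congr_fun hm fun z hz => (he z hz).symm
  rw [hg']
  refine h.trans ?_
  rw [Fin.sum_univ_succ, Finset.sum_eq_zero (s := (Finset.univ : Finset (Fin d))) fun j _ => ?_, add_zero]
  · simp [Fin.insertNth_zero', Fin.zero_succAbove, Function.comp_def, Pi.zero_def, Pi.one_def]
  · refine sub_eq_zero.2 (setIntegral_congr_fun measurableSet_Icc fun x _ => ?_)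
    simp only [Fin.cons_succ, Pi.one_apply, Pi.zero_apply]
    rw [← hper j (j.succ.insertNth (0 : ℝ) x)]
    congr 1
    funext i
    rcases Fin.eq_self_or_eq_succAbove j.succ i with rfl | ⟨k, rfl⟩
    · simp
    · simp [Pi.single_apply, Fin.succAbove_ne]

theorem volume_cube : (∫ _x in Icc (0 : Fin d → ℝ) 1, (1 : ℝ)) = 1 := by
  simp [setIntegral_const, measureReal_def, Real.volume_Icc_pi]

end

end Vale.Agent.P088
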