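import Mathlib
import Vale.Agent.P088.Cyl.Green

/-!
# P088: the least energy of a single Fourier mode
-/

open MeasureTheory Set Filter
open scoped Topology

namespace Vale.Agent.P088

noncomputable section

variable {d N : ℕ}

/-- A cylinder with a metric which is positive definite at every height. -/
structure Geo (d N : ℕ) where
  L : ℝ
  G : ℝ → Matrix (Fin d) (Fin d) ℝ
  a : Fin d → ℝ → Op N
  posL : 0 < L
  smoothG : ∀ i j, ContDiff ℝ 2 fun t => G t i j
  pos : ∀ t, (G t).PosDef
  smootha : ∀ j, ContDiff ℝ 1 (a j)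
  skew : ∀ j t, star (a j t) = -a j t

theorem contDiff_det {n : ℕ} {M : ℝ → Matrix (Fin d) (Fin d) ℝ} (h : ∀ i j, ContDiff ℝ n fun t => M t i j) :
    ContDiff ℝ n fun t => (M t).det := by
  simp only [Matrix.det_apply']
  exact ContDiff.sum fun σ _ => contDiff_const.mul (contDiff_prod fun i _ => h _ _)

namespace Geo

variable (g : Geo d N)

/-- The inverse metric. -/
def H (t : ℝ) (i j : Fin d) : ℝ := (g.G t)⁻¹ i j

/-- The volume density. -/
def vol (t : ℝ) : ℝ := √(g.G t).det

theorem det_pos (t : ℝ) : 0 < (g.G t).det := (g.pos t).det_pos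

theorem vol_pos (t : ℝ) : 0 < g.vol t := Real.sqrt_pos.2 (g.det_pos t)

theorem smooth_det : ContDiff ℝ 2 fun t => (g.G t).det := contDiff_det (n := 2) g.smoothG

theorem smooth_vol : ContDiff ℝ 2 g.vol := g.smooth_det.sqrt fun t => (g.det_pos t).ne'

theorem smooth_H (i j : Fin d) : ContDiff ℝ 2 fun t => g.H t i j := by
  simp only [H, Matrix.inv_def, Matrix.smul_apply, smul_eq_mul, Ring.inverse_eq_inv, Matrix.adjugate_apply]
  refine (g.smooth_det.inv fun t => (g.det_pos t).ne').mul (contDiff_det (n := 2) fun k l => ?_)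
  simp only [Matrix.updateRow_apply]
  by_cases hk : k = j
  · simp only [hk, if_true]; exact contDiff_const
  · simp only [hk, if_false]; exact g.smoothG k l

theorem H_pos (t : ℝ) : ((g.G t)⁻¹).PosDef := (g.pos t).inv

theorem H_symm (t : ℝ) (i j : Fin d) : g.H t i j = g.H t j i := by
  simpa [H] using ((g.H_pos t).isHermitian.apply i j).symm

/-- The real inner product of the fibre. -/
def rip (x y : Fibre N) : ℝ := (inner ℂ x y).re

theorem rip_comm (x y : Fibre N) : rip x y = rip y x := by
  rw [rip, rip, ← inner_conj_symm]; exact Complex.conj_re _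

theorem rip_add_left (x y z : Fibre N) : rip (x + y) z = rip x z + rip y z := by simp [rip, inner_add_left]

theorem rip_add_right (x y z : Fibre N) : rip x (y + z) = rip x y + rip x z := by simp [rip, inner_add_right]

theorem rip_self (x : Fibre N) : rip x x = ‖x‖ ^ 2 := by
  simp [rip, inner_self_eq_norm_sq_to_K, ← Complex.ofReal_pow]

theorem rip_sum_left {ι : Type*} (s : Finset ι) (f : ι → Fibre N) (z : Fibre N) :
    rip (∑ i ∈ s, f i) z = ∑ i ∈ s, rip (f i) z := by simp [rip, sum_inner, Complex.re_sum]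

theorem rip_smul_left (r : ℝ) (x y : Fibre N) : rip ((r : ℂ) • x) y = r * rip x y := by
  simp [rip, inner_smul_left]

/-- The polarised density. -/
def bil (u w : (Fin (d + 1) → ℝ) → Fibre N) (z : Fin (d + 1) → ℝ) : ℝ :=
  g.vol (z 0) * (rip (fderiv ℝ u z (Pi.single 0 1)) (fderiv ℝ w z (Pi.single 0 1)) +
    ∑ i, ∑ j, g.H (z 0) i j * rip (cov g.a u z i) (cov g.a w z j))

theorem dens_eq (u : (Fin (d + 1) → ℝ) → Fibre N) (z : Fin (d + 1) → ℝ) :
    dens g.G g.a u z = g.bil u u z := by
  simp only [dens, bil, H, vol, rip_self]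
  rfl

theorem bil_nonneg (u : (Fin (d + 1) → ℝ) → Fibre N) (z : Fin (d + 1) → ℝ) : 0 ≤ g.bil u u z := by
  refine mul_nonneg (g.vol_pos _).le (add_nonneg (by rw [rip_self]; positivity) ?_)
  have e : ∀ x y : Fibre N, rip x y = ∑ n, ((x n).re * (y n).re + (x n).im * (y n).im) := fun x y => by
    simp [rip, PiLp.inner_apply, Complex.re_sum, mul_comm]
  have q : ∀ x : Fin d → ℝ, 0 ≤ ∑ i, ∑ j, g.H (z 0) i j * (x i * x j) := fun x => by
    have := (g.H_pos (z 0)).posSemidef.dotProduct_mulVec_nonneg x
    simp only [dotProduct, Matrix.mulVec, Finset.mul_sum, star_trivial] at this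
    refine this.trans (le_of_eq (Finset.sum_congr rfl fun i _ => Finset.sum_congr rfl fun j _ => by rw [H]; ring))
  have hs : ∑ i, ∑ j, g.H (z 0) i j * rip (cov g.a u z i) (cov g.a u z j) =
      ∑ n, ((∑ i, ∑ j, g.H (z 0) i j * ((cov g.a u z i n).re * (cov g.a u z j n).re)) +
        ∑ i, ∑ j, g.H (z 0) i j * ((cov g.a u z i n).im * (cov g.a u z j n).im)) := by
    simp only [e, Finset.mul_sum, mul_add, Finset.sum_add_distrib]
    congr 1 <;> rw [Finset.sum_comm (s := (Finset.univ : Finset (Fin N)))] <;>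
      exact Finset.sum_congr rfl fun i _ => Finset.sum_comm
  rw [hs]
  exact Finset.sum_nonneg fun n _ => add_nonneg (q _) (q _)

theorem bil_add {u w : (Fin (d + 1) → ℝ) → Fibre N} (hu : ContDiff ℝ 1 u) (hw : ContDiff ℝ 1 w)
    (z : Fin (d + 1) → ℝ) :
    g.bil (u + w) (u + w) z = g.bil u u z + 2 * g.bil u w z + g.bil w w z := by
  have hd := fderiv_add (hu.differentiable one_ne_zero z) (hw.differentiable one_ne_zero z)
  have hc : ∀ i, cov g.a (u + w) z i = cov g.a u z i + cov g.a w z i := fun i => by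
    simp [cov, hd]; abel
  have hs : ∑ i, ∑ j, g.H (z 0) i j * rip (cov g.a w z i) (cov g.a u z j) =
      ∑ i, ∑ j, g.H (z 0) i j * rip (cov g.a u z i) (cov g.a w z j) := by
    rw [Finset.sum_comm]
    exact Finset.sum_congr rfl fun i _ => Finset.sum_congr rfl fun j _ => by rw [rip_comm, g.H_symm]
  simp only [bil, hd, hc, add_apply, rip_add_left, rip_add_right, mul_add, Finset.sum_add_distrib, hs,
    rip_comm (fderiv ℝ w z (Pi.single 0 1))]
  ring

theorem continuous_bil {u w : (Fin (d + 1) → ℝ) → Fibre N} (hu : ContDiff ℝ 1 u) (hw : ContDiff ℝ 1 w) :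
    Continuous (g.bil u w) := by
  have h0 : Continuous fun z : Fin (d + 1) → ℝ => z 0 := continuous_apply 0
  have hv : ∀ {x : (Fin (d + 1) → ℝ) → Fibre N}, ContDiff ℝ 1 x → ∀ e, Continuous fun z => fderiv ℝ x z e :=
    fun hx e => (hx.continuous_fderiv one_ne_zero).clm_apply continuous_const
  have hc : ∀ {x : (Fin (d + 1) → ℝ) → Fibre N}, ContDiff ℝ 1 x → ∀ i, Continuous fun z => cov g.a x z i :=
    fun hx i => (hv hx _).add (((g.smootha i).continuous.comp h0).clm_apply hx.continuous)
  have hr : ∀ {x y : (Fin (d + 1) → ℝ) → Fibre N}, Continuous x → Continuous y →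
      Continuous fun z => rip (x z) (y z) := fun hx hy => Complex.continuous_re.comp (hx.inner hy)
  exact (g.smooth_vol.continuous.comp h0).mul ((hr (hv hu _) (hv hw _)).add
    (continuous_finsetSum _ fun i _ => continuous_finsetSum _ fun j _ =>
      ((g.smooth_H i j).continuous.comp h0).mul (hr (hc hu i) (hc hw j))))

/-- The frequency of a mode in the `j`-th direction. -/
def freq (k : Fin d → ℤ) (j : Fin d) : ℂ := 2 * Real.pi * Complex.I * (k j : ℂ)

/-- A character of the torus. -/
def char (k : Fin d → ℤ) (z : Fin (d + 1) → ℝ) : ℂ := Complex.exp (∑ j, freq k j * (z j.succ : ℂ))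

/-- The operator by which a covariant derivative acts on a mode. -/
def K (k : Fin d → ℤ) (j : Fin d) (t : ℝ) : Op N := freq k j • (1 : Op N) + g.a j t

theorem freq_re (k : Fin d → ℤ) (j : Fin d) : (freq k j).re = 0 := by simp [freq]

theorem norm_char (k : Fin d → ℤ) (z : Fin (d + 1) → ℝ) : ‖char k z‖ = 1 := by
  rw [char, Complex.norm_exp]
  simp [Complex.re_sum, freq_re]

theorem char_periodic (k : Fin d → ℤ) (j : Fin d) (z : Fin (d + 1) → ℝ) :
    char k (z + Pi.single j.succ 1) = char k z := by
  have e : ∑ i : Fin d, freq k i * (((z + Pi.single j.succ 1 : Fin (d + 1) → ℝ) i.succ : ℝ) : ℂ) =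
      (∑ i, freq k i * (z i.succ : ℂ)) + (k j : ℂ) * (2 * Real.pi * Complex.I) := by
    simp [Pi.single_apply, Fin.succ_inj, mul_add, Finset.sum_add_distrib, freq, apply_ite Complex.ofReal]
    ring
  rw [char, e, Complex.exp_add, Complex.exp_int_mul_two_pi_mul_I, mul_one, char]

theorem contDiff_char (k : Fin d → ℤ) {n : WithTop ℕ∞} : ContDiff ℝ n (char k) := by
  refine ContDiff.cexp (ContDiff.sum fun j _ => contDiff_const.mul ?_)
  exact Complex.ofRealCLM.contDiff.comp (contDiff_apply ℝ ℝ j.succ)

/-- Derivatives of a mode. -/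
theorem wave_deriv (k : Fin d → ℤ) {Y : ℝ → Fibre N} {y : Fibre N} {z : Fin (d + 1) → ℝ}
    (hY : HasDerivAt Y y (z 0)) :
    DifferentiableAt ℝ (fun w => char k w • Y (w 0)) z ∧
      fderiv ℝ (fun w => char k w • Y (w 0)) z (Pi.single 0 1) = char k z • y ∧
      ∀ j, fderiv ℝ (fun w => char k w • Y (w 0)) z (Pi.single j.succ 1) =
        char k z • (freq k j • Y (z 0)) := by
  have hc : HasFDerivAt (char k) (char k z • ∑ i : Fin d,
      freq k i • (Complex.ofRealCLM.comp (ContinuousLinearMap.proj i.succ : (Fin (d + 1) → ℝ) →L[ℝ] ℝ))) z := by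
    refine (HasFDerivAt.fun_sum fun i _ => ?_).cexp
    exact (Complex.ofRealCLM.hasFDerivAt.comp z (hasFDerivAt_apply i.succ z)).const_mul (freq k i)
  have hYf := hY.hasFDerivAt.comp z (hasFDerivAt_apply (𝕜 := ℝ) (0 : Fin (d + 1)) z)
  have h := hc.smul hYf
  refine ⟨h.differentiableAt, ?_, fun j => ?_⟩
  · rw [show (fun w => char k w • Y (w 0)) = char k • (Y ∘ fun f : Fin (d + 1) → ℝ => f 0) from rfl, h.fderiv]
    simp [Pi.single_apply, Fin.succ_ne_zero]
  · rw [show (fun w => char k w • Y (w 0)) = char k • (Y ∘ fun f : Fin (d + 1) → ℝ => f 0) from rfl, h.fderiv]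
    simp [Pi.single_apply, Fin.succ_inj, smul_smul, apply_ite Complex.ofReal]

theorem fderiv_rip {x w : (Fin (d + 1) → ℝ) → Fibre N} {z : Fin (d + 1) → ℝ} (hx : DifferentiableAt ℝ x z)
    (hw : DifferentiableAt ℝ w z) :
    DifferentiableAt ℝ (fun y => rip (x y) (w y)) z ∧ ∀ e, fderiv ℝ (fun y => rip (x y) (w y)) z e =
      rip (fderiv ℝ x z e) (w z) + rip (x z) (fderiv ℝ w z e) := by
  have h := Complex.reCLM.hasFDerivAt.comp z (hx.hasFDerivAt.inner ℂ hw.hasFDerivAt)
  refine ⟨h.differentiableAt, fun e => ?_⟩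
  change fderiv ℝ (⇑Complex.reCLM ∘ fun t => inner ℂ (x t) (w t)) z e = _
  rw [h.fderiv]
  simp [rip, fderivInnerCLM_apply, add_comm]

theorem rip_char_smul (k : Fin d → ℤ) (z : Fin (d + 1) → ℝ) (x y : Fibre N) :
    rip (char k z • x) (char k z • y) = rip x y := by
  simp only [rip, inner_smul_left, inner_smul_right, ← mul_assoc, Complex.mul_conj', norm_char]
  simp

/-- The horizontal flux of a mode. -/
def flux (k : Fin d → ℤ) (v : ℝ → Fibre N) (j : Fin d) (t : ℝ) : Fibre N :=
  ∑ i, ((g.vol t * g.H t i j : ℝ) : ℂ) • g.K k i t (v t)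

/-- A solution of the equation of a mode which vanishes at the far end. -/
structure Prof (k : Fin d → ℤ) (ξ : Fibre N) (v v' : ℝ → Fibre N) : Prop where
  der : ∀ t, HasDerivAt v (v' t) t
  cont : Continuous v'
  first : v 0 = ξ
  last : v g.L = 0
  ode : ∀ t ∈ Ioo 0 g.L, HasDerivAt (fun s => (g.vol s : ℂ) • v' s)
    (-∑ j, g.K k j t (g.flux k v j t)) t

theorem minEnergy_mode {k : Fin d → ℤ} {ξ : Fibre N} {v v' : ℝ → Fibre N} (h : g.Prof k ξ v v') :
    minEnergy g.L g.G g.a (fun x : Fin d → ℝ => char k (Fin.cons 0 x) • ξ) =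
      -rip ((g.vol 0 : ℂ) • v' 0) ξ := by
  set u : (Fin (d + 1) → ℝ) → Fibre N := fun z => char k z • v (z 0) with hu
  have hv1 : ContDiff ℝ 1 v := contDiff_one_iff_deriv.2
    ⟨fun t => (h.der t).differentiableAt, by rw [funext fun t => (h.der t).deriv]; exact h.cont⟩
  have hu1 : ContDiff ℝ 1 u := (contDiff_char k).smul (hv1.comp (contDiff_apply ℝ ℝ (0 : Fin (d + 1))))
  have hup : Periodic u := fun z j => by
    simp [u, char_periodic k j z, Pi.single_apply, (Fin.succ_ne_zero j).symm]
  have hflux : ∀ w : (Fin (d + 1) → ℝ) → Fibre N, ContDiff ℝ 1 w → Periodic w →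
      ∫ z in box d g.L, g.bil u w z =
        (∫ x in Icc (0 : Fin d → ℝ) 1, rip (char k (Fin.cons g.L x) • ((g.vol g.L : ℂ) • v' g.L)) (w (Fin.cons g.L x))) -
        ∫ x in Icc (0 : Fin d → ℝ) 1, rip (char k (Fin.cons 0 x) • ((g.vol 0 : ℂ) • v' 0)) (w (Fin.cons 0 x)) := by
    intro w hw hwp
    let F : Fin (d + 1) → (Fin (d + 1) → ℝ) → ℝ := Fin.cases
      (fun z => rip (char k z • ((g.vol (z 0) : ℂ) • v' (z 0))) (w z))
      (fun j z => rip (char k z • g.flux k v j (z 0)) (w z))
    have hK : ∀ i, ContDiff ℝ 1 fun t => g.K k i t := fun i => contDiff_const.add (g.smootha i)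
    have hfl : ∀ j, ContDiff ℝ 1 (g.flux k v j) := fun j => ContDiff.sum fun i _ =>
      (Complex.ofRealCLM.contDiff.comp ((g.smooth_vol.of_le (by norm_num)).mul
        ((g.smooth_H i j).of_le (by norm_num)))).smul
        ((ContinuousLinearMap.restrictScalarsL ℂ (Fibre N) (Fibre N) ℝ ℝ).contDiff.comp (hK i) |>.clm_apply hv1)
    refine integral_div g.posL.le (F := F) (fun i => ?_) (g.continuous_bil hu1 hw).continuousOn
      (fun z hz i => ?_) (fun z hz => ?_) fun j z => ?_
    · induction i using Fin.cases with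
      | zero =>
        exact Complex.continuous_re.comp (((contDiff_char k (n := 1)).continuous.smul
          ((Complex.continuous_ofReal.comp (g.smooth_vol.continuous.comp (continuous_apply 0))).smul
            (h.cont.comp (continuous_apply 0)))).inner hw.continuous)
      | succ j =>
        exact Complex.continuous_re.comp (((contDiff_char k (n := 1)).continuous.smul
          ((hfl j).continuous.comp (continuous_apply 0))).inner hw.continuous)
    · induction i using Fin.cases with
      | zero => exact (fderiv_rip (wave_deriv k (h.ode _ (height_mem_cell hz))).1 (hw.differentiable one_ne_zero z)).1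
      | succ j =>
        exact (fderiv_rip (wave_deriv k ((hfl j).differentiable one_ne_zero (z 0)).hasDerivAt).1
          (hw.differentiable one_ne_zero z)).1
    · have hwd := hw.differentiable one_ne_zero z
      have hP := wave_deriv k (h.ode _ (height_mem_cell hz))
      rw [Fin.sum_univ_succ]
      simp only [F, Fin.cases_zero, Fin.cases_succ]
      rw [(fderiv_rip hP.1 hwd).2, hP.2.1]
      have hj : ∀ j : Fin d, fderiv ℝ (fun y => rip (char k y • g.flux k v j (y 0)) (w y)) z (Pi.single j.succ 1) =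
          rip (char k z • g.K k j (z 0) (g.flux k v j (z 0))) (w z) +
            rip (char k z • g.flux k v j (z 0)) (cov g.a w z j) := by
        intro j
        have hF := wave_deriv k ((hfl j).differentiable one_ne_zero (z 0)).hasDerivAt
        rw [(fderiv_rip hF.1 hwd).2, hF.2.2]
        have hadj : rip (char k z • g.a j (z 0) (g.flux k v j (z 0))) (w z) +
            rip (char k z • g.flux k v j (z 0)) (g.a j (z 0) (w z)) = 0 := by
          rw [← map_smul]
          generalize char k z • g.flux k v j (z 0) = Y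
          rw [rip, rip, ← ContinuousLinearMap.adjoint_inner_right,
            ← ContinuousLinearMap.star_eq_adjoint, g.skew, neg_apply, inner_neg_right]
          simp
        simp only [K, cov, add_apply, ContinuousLinearMap.smul_apply, ContinuousLinearMap.one_apply, smul_add,
          rip_add_left, rip_add_right]
        linarith
      rw [Finset.sum_congr rfl fun j _ => hj j, Finset.sum_add_distrib, bil]
      have hu0 := wave_deriv (z := z) k (h.der (z 0))
      have hcov : ∀ i, cov g.a u z i = char k z • g.K k i (z 0) (v (z 0)) := fun i => by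
        rw [cov]
        simp only [u]
        rw [hu0.2.2 i, map_smul]
        simp [K, smul_add]
      have e1 : rip (char k z • -∑ j, g.K k j (z 0) (g.flux k v j (z 0))) (w z) +
          ∑ j, rip (char k z • g.K k j (z 0) (g.flux k v j (z 0))) (w z) = 0 := by
        rw [smul_neg, Finset.smul_sum]
        simp only [rip, inner_neg_left, sum_inner, Complex.neg_re, Complex.re_sum, neg_add_cancel]
      have e2 : ∑ j, rip (char k z • g.flux k v j (z 0)) (cov g.a w z j) =
          g.vol (z 0) * ∑ i, ∑ j, g.H (z 0) i j * rip (cov g.a u z i) (cov g.a w z j) := by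
        simp only [flux, Finset.smul_sum, rip_sum_left, smul_comm (char k z), rip_smul_left, hcov, Finset.mul_sum]
        rw [Finset.sum_comm]
        exact Finset.sum_congr rfl fun i _ => Finset.sum_congr rfl fun j _ => by ring
      have e3 : rip (char k z • ((g.vol (z 0) : ℂ) • v' (z 0))) (fderiv ℝ w z (Pi.single 0 1)) =
          g.vol (z 0) * rip (fderiv ℝ u z (Pi.single 0 1)) (fderiv ℝ w z (Pi.single 0 1)) := by
        rw [smul_comm, rip_smul_left, hu0.2.1]
      linarith [e1, e2, e3]
    · simp [F, char_periodic k j z, hwp z j, Pi.single_apply, (Fin.succ_ne_zero j).symm]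
  have hEu : energy g.L g.G g.a u = -rip ((g.vol 0 : ℂ) • v' 0) ξ := by
    simp only [energy, dens_eq]
    rw [hflux u hu1 hup]
    simp only [u, Fin.cons_zero, h.first, h.last, rip_char_smul]
    rw [setIntegral_const, setIntegral_const]
    simp [measureReal_def, Real.volume_Icc_pi, rip]
  refine IsLeast.csInf_eq ⟨⟨u, hu1, hup, fun x => by simp [u, h.first], fun x => by simp [u, h.last], hEu.symm⟩, ?_⟩
  rintro E ⟨y, hy, hyp, hy0, hy1, rfl⟩
  rw [← hEu]
  set w := y - u with hw
  have hw1 : ContDiff ℝ 1 w := hy.sub hu1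
  have hcross : ∫ z in box d g.L, g.bil u w z = 0 := by
    rw [hflux w hw1 fun z j => by simp [w, hyp z j, hup z j]]
    simp [w, u, hy0, hy1, h.first, h.last, rip]
  have hy' : y = u + w := by rw [hw]; abel
  rw [hy']
  simp only [energy, dens_eq, g.bil_add hu1 hw1]
  have i1 := (g.continuous_bil hu1 hu1).continuousOn.integrableOn_compact (μ := volume) (isCompact_box (d := d) g.L)
  have i2 := (g.continuous_bil hu1 hw1).continuousOn.integrableOn_compact (μ := volume) (isCompact_box (d := d) g.L)
  have i3 := (g.continuous_bil hw1 hw1).continuousOn.integrableOn_compact (μ := volume) (isCompact_box (d := d) g.L)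
  rw [integral_add (f := fun z => g.bil u u z + 2 * g.bil u w z) (i1.add (i2.const_mul 2)) i3,
    integral_add i1 (i2.const_mul 2), integral_const_mul, hcross]
  have : 0 ≤ ∫ z in box d g.L, g.bil w w z := setIntegral_nonneg (measurableSet_box _) fun z _ => g.bil_nonneg w z
  linarith

end Geo

end

end Vale.Agent.P088
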