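import Mathlib
import Vale.Agent.P088.Cyl.Mode
import Vale.Agent.P088.Core.Uniqueness
import Vale.Agent.P088.Cyl.Alg

/-!
# P088: from the cylinder to a Schrödinger pencil in the travel time
-/

open MeasureTheory Set Filter
open scoped Topology

namespace Vale.Agent.P088

noncomputable section

variable {d N : ℕ}

namespace Geo

variable (g : Geo d N) (i₀ : Fin d)

/-- The speed of modes travelling in the direction `i₀`. -/
def spd (t : ℝ) : ℝ := 2 * Real.pi * √(g.H t i₀ i₀)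

theorem spd_pos (t : ℝ) : 0 < g.spd i₀ t :=
  mul_pos Real.two_pi_pos (Real.sqrt_pos.2 (g.H_pos t).diag_pos)

theorem smooth_spd : ContDiff ℝ 2 (g.spd i₀) :=
  contDiff_const.mul ((g.smooth_H i₀ i₀).sqrt fun _ => ((g.H_pos _).diag_pos).ne')

theorem spd_sq (t : ℝ) : g.spd i₀ t ^ 2 = 4 * Real.pi ^ 2 * g.H t i₀ i₀ := by
  rw [spd, mul_pow, Real.sq_sqrt (show 0 ≤ g.H t i₀ i₀ from ((g.H_pos t).diag_pos).le)]; ring

/-- The speed, frozen outside the interval. -/
def cspd (t : ℝ) : ℝ := g.spd i₀ (max 0 (min g.L t))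

theorem continuous_cspd : Continuous (g.cspd i₀) :=
  (g.smooth_spd i₀).continuous.comp (continuous_const.max (continuous_const.min continuous_id))

theorem cspd_eq {t : ℝ} (ht : t ∈ Icc 0 g.L) : g.cspd i₀ t = g.spd i₀ t := by
  rw [cspd, min_eq_right ht.2, max_eq_right ht.1]

/-- The travel time. -/
def time (t : ℝ) : ℝ := ∫ r in (0:ℝ)..t, g.cspd i₀ r

theorem hasDeriv_time (t : ℝ) : HasDerivAt (g.time i₀) (g.cspd i₀ t) t :=
  ((g.continuous_cspd i₀).integral_hasStrictDerivAt 0 t).hasDerivAt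

theorem time_zero : g.time i₀ 0 = 0 := intervalIntegral.integral_same

theorem strictMono_time : StrictMono (g.time i₀) :=
  strictMono_of_deriv_pos fun t => by rw [(g.hasDeriv_time i₀ t).deriv]; exact g.spd_pos i₀ _

theorem surjective_time : Function.Surjective (g.time i₀) := by
  obtain ⟨m, hm, hmin⟩ := (isCompact_Icc (a := (0:ℝ)) (b := g.L)).exists_isMinOn
    (nonempty_Icc.2 g.posL.le) (g.smooth_spd i₀).continuous.continuousOn
  have hc0 : 0 < g.spd i₀ m := g.spd_pos i₀ m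
  have hlow : ∀ t, g.spd i₀ m ≤ g.cspd i₀ t := fun t =>
    hmin ⟨le_max_left _ _, max_le g.posL.le (min_le_left _ _)⟩
  have hcont : Continuous (g.time i₀) :=
    continuous_iff_continuousAt.2 fun t => (g.hasDeriv_time i₀ t).continuousAt
  refine hcont.surjective ?_ ?_
  · refine tendsto_atTop_mono' atTop ?_ (tendsto_id.const_mul_atTop hc0)
    filter_upwards [eventually_ge_atTop (0:ℝ)] with t ht
    refine le_trans (le_of_eq ?_) (intervalIntegral.integral_mono_on ht intervalIntegrable_const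
      ((g.continuous_cspd i₀).intervalIntegrable _ _) fun r _ => hlow r)
    simp [mul_comm]
  · refine tendsto_atBot_mono' atBot ?_ (tendsto_id.const_mul_atBot hc0)
    filter_upwards [eventually_le_atBot (0:ℝ)] with t ht
    rw [time, intervalIntegral.integral_symm, id]
    have := intervalIntegral.integral_mono_on (μ := volume) ht intervalIntegrable_const
      ((g.continuous_cspd i₀).intervalIntegrable _ _) fun r _ => hlow r
    rw [intervalIntegral.integral_const, smul_eq_mul] at this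
    linarith

/-- The height reached at a given travel time. -/
def height : ℝ → ℝ :=
  (StrictMono.orderIsoOfSurjective _ (g.strictMono_time i₀) (g.surjective_time i₀)).symm

theorem continuous_height : Continuous (g.height i₀) := OrderIso.continuous _

theorem height_time (t : ℝ) : g.height i₀ (g.time i₀ t) = t :=
  (StrictMono.orderIsoOfSurjective _ (g.strictMono_time i₀) (g.surjective_time i₀)).symm_apply_apply t

theorem time_height (t : ℝ) : g.time i₀ (g.height i₀ t) = t :=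
  (StrictMono.orderIsoOfSurjective _ (g.strictMono_time i₀) (g.surjective_time i₀)).apply_symm_apply t

/-- The travel time of the cylinder. -/
def span : ℝ := g.time i₀ g.L

theorem span_pos : 0 < g.span i₀ := by
  have := g.strictMono_time i₀ g.posL
  rwa [g.time_zero] at this

/-- The square root of the impedance. -/
def amp (t : ℝ) : ℝ := √(g.vol t * g.spd i₀ t)

theorem amp_pos (t : ℝ) : 0 < g.amp i₀ t := Real.sqrt_pos.2 (mul_pos (g.vol_pos t) (g.spd_pos i₀ t))

theorem amp_sq (t : ℝ) : g.amp i₀ t ^ 2 = g.vol t * g.spd i₀ t :=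
  Real.sq_sqrt (mul_pos (g.vol_pos t) (g.spd_pos i₀ t)).le

theorem smooth_amp : ContDiff ℝ 2 (g.amp i₀) :=
  (g.smooth_vol.mul (g.smooth_spd i₀)).sqrt fun t => (mul_pos (g.vol_pos t) (g.spd_pos i₀ t)).ne'

/-- The derivative of the amplitude in the travel time. -/
def slopeAmp (t : ℝ) : ℝ := deriv (g.amp i₀) t / g.spd i₀ t

theorem smooth_slopeAmp : ContDiff ℝ 1 (g.slopeAmp i₀) :=
  (((contDiff_succ_iff_deriv (n := 1)).1 (g.smooth_amp i₀)).2.2).div ((g.smooth_spd i₀).of_le (by norm_num))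
    fun t => (g.spd_pos i₀ t).ne'

/-- The potential created by a varying impedance. -/
def imped (t : ℝ) : ℝ := deriv (g.slopeAmp i₀) t / (g.amp i₀ t * g.spd i₀ t)

theorem continuous_imped : Continuous (g.imped i₀) :=
  ((g.smooth_slopeAmp i₀).continuous_deriv le_rfl).div ((g.smooth_amp i₀).continuous.mul (g.smooth_spd i₀).continuous)
    fun t => (mul_pos (g.amp_pos i₀ t) (g.spd_pos i₀ t)).ne'

/-- The part of the pencil linear in the parameter, at a height. -/
def linPart (k₀ : Fin d → ℤ) (t : ℝ) : Op N :=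
  (-(4 * Real.pi * Complex.I) / ((g.spd i₀ t ^ 2 : ℝ) : ℂ)) • ∑ i, (g.H t i i₀ : ℂ) • g.K k₀ i t

/-- The part of the pencil free of the parameter, at a height. -/
def constPart (k₀ : Fin d → ℤ) (t : ℝ) : Op N :=
  (-1 / ((g.spd i₀ t ^ 2 : ℝ) : ℂ)) • (∑ j, ∑ i, (g.H t i j : ℂ) • (g.K k₀ j t * g.K k₀ i t))

theorem continuous_K (k₀ : Fin d → ℤ) (i : Fin d) : Continuous (g.K k₀ i) :=
  continuous_const.add (g.smootha i).continuous

theorem star_K (k₀ : Fin d → ℤ) (i : Fin d) (t : ℝ) : star (g.K k₀ i t) = -g.K k₀ i t :=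
  star_shift (by simp [freq]) (g.skew i t)

theorem continuous_linPart (k₀ : Fin d → ℤ) : Continuous (g.linPart i₀ k₀) := by
  have h1 : Continuous fun t => -(4 * (Real.pi : ℂ) * Complex.I) / ((g.spd i₀ t ^ 2 : ℝ) : ℂ) :=
    continuous_const.div (Complex.continuous_ofReal.comp ((g.smooth_spd i₀).continuous.pow 2))
      fun t => Complex.ofReal_ne_zero.2 (pow_pos (g.spd_pos i₀ t) 2).ne'
  have h2 : Continuous fun t => ∑ i, (g.H t i i₀ : ℂ) • g.K k₀ i t :=
    continuous_finsetSum _ fun i _ =>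
      (Complex.continuous_ofReal.comp (g.smooth_H i i₀).continuous).smul (g.continuous_K k₀ i)
  exact h1.smul h2

theorem continuous_constPart (k₀ : Fin d → ℤ) : Continuous (g.constPart i₀ k₀) := by
  have h1 : Continuous fun t => (-1 : ℂ) / ((g.spd i₀ t ^ 2 : ℝ) : ℂ) :=
    continuous_const.div (Complex.continuous_ofReal.comp ((g.smooth_spd i₀).continuous.pow 2))
      fun t => Complex.ofReal_ne_zero.2 (pow_pos (g.spd_pos i₀ t) 2).ne'
  have h2 : Continuous fun t => ∑ j, ∑ i, (g.H t i j : ℂ) • (g.K k₀ j t * g.K k₀ i t) :=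
    continuous_finsetSum _ fun j _ => continuous_finsetSum _ fun i _ =>
      (Complex.continuous_ofReal.comp (g.smooth_H i j).continuous).smul
        ((g.continuous_K k₀ j).mul (g.continuous_K k₀ i))
  exact h1.smul h2

theorem star_linPart (k₀ : Fin d → ℤ) (t : ℝ) : star (g.linPart i₀ k₀ t) = g.linPart i₀ k₀ t :=
  star_skew_sum (𝔸 := Op N) (by simp [neg_div]) (fun i => g.H t i i₀) _ fun i => g.star_K k₀ i t

theorem star_constPart (k₀ : Fin d → ℤ) (t : ℝ) : star (g.constPart i₀ k₀ t) = g.constPart i₀ k₀ t :=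
  star_skew_quad (𝔸 := Op N) (by simp [neg_div]) (fun i j => g.H t i j) (g.H_symm t) _ fun i => g.star_K k₀ i t

/-- The pencil seen along the travel time. -/
def pot (k₀ : Fin d → ℤ) : Pot (Op N) where
  B s := g.linPart i₀ k₀ (g.height i₀ s)
  D s := g.constPart i₀ k₀ (g.height i₀ s) + (g.imped i₀ (g.height i₀ s) : ℂ) • 1
  contB := (g.continuous_linPart i₀ k₀).comp (g.continuous_height i₀)
  contD := ((g.continuous_constPart i₀ k₀).add
    ((Complex.continuous_ofReal.comp (g.continuous_imped i₀)).smul continuous_const)).comp (g.continuous_height i₀)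
  starB s := g.star_linPart i₀ k₀ _
  starD s := by
    rw [star_add, g.star_constPart i₀ k₀, star_smul, star_one, Complex.star_def, Complex.conj_ofReal]

/-- The initial slope of the pencil. -/
def slope₀ : Op N := ((g.slopeAmp i₀ 0 / g.amp i₀ 0 : ℝ) : ℂ) • 1

theorem star_slope₀ : star (g.slope₀ i₀) = g.slope₀ i₀ := by simp [slope₀, star_smul]

/-- The frequencies of one family of modes. -/
def ray (k₀ : Fin d → ℤ) (n : ℕ) (j : Fin d) : ℤ := (if j = i₀ then (n : ℤ) else 0) + k₀ j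

theorem K_ray (k₀ : Fin d → ℤ) (n : ℕ) (j : Fin d) (t : ℝ) :
    g.K (ray i₀ k₀ n) j t =
      (if j = i₀ then 2 * Real.pi * Complex.I * (n : ℂ) else 0) • (1 : Op N) + g.K k₀ j t := by
  simp only [K, freq, ray]
  split_ifs <;> push_cast <;> module

theorem symbol_eq (k₀ : Fin d → ℤ) (n : ℕ) (t : ℝ) :
    -∑ j, g.K (ray i₀ k₀ n) j t * ∑ i, ((g.vol t * g.H t i j : ℝ) : ℂ) • g.K (ray i₀ k₀ n) i t =
      ((g.vol t * g.spd i₀ t ^ 2 : ℝ) : ℂ) •
        ((n : ℂ) ^ 2 • (1 : Op N) + (n : ℂ) • g.linPart i₀ k₀ t + g.constPart i₀ k₀ t) := by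
  obtain ⟨c, hc⟩ : ∃ c : ℂ, 2 * Real.pi * Complex.I * (n : ℂ) = c := ⟨_, rfl⟩
  have hsym : ∀ i, g.H t i₀ i = g.H t i i₀ := fun i => g.H_symm t i₀ i
  have e1 : ∑ j, g.K (ray i₀ k₀ n) j t * ∑ i, ((g.vol t * g.H t i j : ℝ) : ℂ) • g.K (ray i₀ k₀ n) i t =
      (g.vol t : ℂ) • ((c * c * (g.H t i₀ i₀ : ℂ)) • (1 : Op N) +
        (2 * c) • (∑ i, (g.H t i i₀ : ℂ) • g.K k₀ i t) +
        ∑ j, ∑ i, (g.H t i j : ℂ) • (g.K k₀ j t * g.K k₀ i t)) := by
    simp only [g.K_ray, hc, Complex.ofReal_mul]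
    exact symbol_expand (𝔸 := Op N) c _ (fun i j => (g.H t i j : ℂ)) i₀ (fun i => by rw [hsym i])
      fun j => g.K k₀ j t
  have hs : ((g.spd i₀ t ^ 2 : ℝ) : ℂ) ≠ 0 := Complex.ofReal_ne_zero.2 (pow_pos (g.spd_pos i₀ t) 2).ne'
  rw [e1, ← hc, linPart, constPart]
  have hsq : ((g.spd i₀ t ^ 2 : ℝ) : ℂ) = 4 * (Real.pi : ℂ) ^ 2 * (g.H t i₀ i₀ : ℂ) := by
    rw [g.spd_sq i₀ t]; push_cast; ring
  obtain ⟨S, hS⟩ : ∃ S : ℂ, ((g.spd i₀ t ^ 2 : ℝ) : ℂ) = S := ⟨_, rfl⟩
  rw [Complex.ofReal_mul, hS]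
  rw [hS] at hs hsq
  match_scalars <;> field_simp
  all_goals first
    | ring1
    | linear_combination (norm := ring_nf) (-(g.vol t : ℂ) * (n : ℂ) ^ 2) * hsq -
        (4 * (g.vol t : ℂ) * (Real.pi : ℂ) ^ 2 * (n : ℂ) ^ 2 * (g.H t i₀ i₀ : ℂ)) * Complex.I_sq

/-- The response of one mode. -/
theorem minEnergy_ray [NeZero N] (k₀ : Fin d → ℤ) : ∀ᶠ n : ℕ in atTop, ∀ ξ : Fibre N,
    minEnergy g.L g.G g.a (fun x : Fin d → ℝ => char (ray i₀ k₀ n) (Fin.cons 0 x) • ξ) =
      rip (((g.amp i₀ 0 ^ 2 : ℝ) : ℂ) • Pot.resp (g.pot i₀ k₀) (g.slope₀ i₀) (g.span i₀) (n : ℂ) ξ) ξ := by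
  obtain ⟨R, C, hg⟩ := ((g.pot i₀ k₀).rev (g.span i₀)).exists_growth (g.span_pos i₀)
  filter_upwards [eventually_ge_atTop ⌈R⌉₊] with n hn ξ
  have hnR : R ≤ ((n : ℂ)).re := by simpa using (Nat.le_ceil R).trans (by exact_mod_cast hn)
  set P := g.pot i₀ k₀ with hP
  set T := g.span i₀ with hT
  set M := Ring.inverse (P.W T (n : ℂ)) with hM
  have hu : IsUnit (P.W T (n : ℂ)) := (hg.unit _ hnR).1
  set f : ℝ → Op N := fun s => (P.rev T).S (n : ℂ) (T - s) * M with hf
  set f' : ℝ → Op N := fun s => -(P.rev T).S' (n : ℂ) (T - s) * M with hf'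
  have hsol : P.IsSol (n : ℂ) f f' := (P.isSol_end T (n : ℂ)).mul_right M
  set r : ℝ → ℝ := g.amp i₀ with hr
  set c₀ : ℝ := r 0 with hc₀
  set ρ : ℝ → ℝ := g.slopeAmp i₀ with hρ
  have hr1 : ∀ t, HasDerivAt r (deriv r t) t := fun t =>
    (((g.smooth_amp i₀).differentiable two_ne_zero) t).hasDerivAt
  have hr0 : ∀ t, r t ≠ 0 := fun t => (g.amp_pos i₀ t).ne'
  have hz : ∀ (F F' : ℝ → Op N), (∀ s, HasDerivAt F (F' s) s) →
      ∀ t, HasDerivAt (fun x => F (g.time i₀ x) ξ) ((g.cspd i₀ t : ℂ) • F' (g.time i₀ t) ξ) t := by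
    intro F F' hF t
    have h1 := (hF (g.time i₀ t)).scomp t (g.hasDeriv_time i₀ t)
    refine (((ContinuousLinearMap.apply ℂ (Fibre N) ξ).restrictScalars ℝ).hasFDerivAt.comp_hasDerivAt t h1).congr_deriv ?_
    simp [Complex.coe_smul]
  have hzf := hz f f' hsol.d₁
  have hzf' := hz f' (fun s => P.q (n : ℂ) s * f s) hsol.d₂
  set v : ℝ → Fibre N := fun t => ((c₀ / r t : ℝ) : ℂ) • f (g.time i₀ t) ξ with hv
  set v' : ℝ → Fibre N := fun t => ((c₀ / r t : ℝ) : ℂ) • ((g.cspd i₀ t : ℂ) • f' (g.time i₀ t) ξ) +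
    ((-(c₀ * deriv r t / r t ^ 2) : ℝ) : ℂ) • f (g.time i₀ t) ξ with hv'
  have hvd : ∀ t, HasDerivAt v (v' t) t := fun t => by
    refine ((((hasDerivAt_const t c₀).div (hr1 t) (hr0 t)).ofReal_comp).smul (hzf t)).congr_deriv ?_
    simp only [v', Pi.div_apply]
    congr 3
    field_simp
    ring
  have hv'c : Continuous v' := by
    have hc : Continuous (g.time i₀) := continuous_iff_continuousAt.2 fun t => (g.hasDeriv_time i₀ t).continuousAt
    have hfc : Continuous f := continuous_iff_continuousAt.2 fun t => (hsol.d₁ t).continuousAt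
    have hfc' : Continuous f' := continuous_iff_continuousAt.2 fun t => (hsol.d₂ t).continuousAt
    have hdr : Continuous (deriv r) := (g.smooth_amp i₀).continuous_deriv (by norm_num)
    have hrc : Continuous r := (g.smooth_amp i₀).continuous
    refine ((Complex.continuous_ofReal.comp (continuous_const.div hrc hr0)).smul
      ((Complex.continuous_ofReal.comp (g.continuous_cspd i₀)).smul ((hfc'.comp hc).clm_apply continuous_const))).add
      ((Complex.continuous_ofReal.comp ?_).smul ((hfc.comp hc).clm_apply continuous_const))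
    exact ((continuous_const.mul hdr).div (hrc.pow 2) fun t => pow_ne_zero 2 (hr0 t)).neg
  have hf0 : f 0 = 1 := by
    simp only [f, M, sub_zero]
    exact Ring.mul_inverse_cancel _ hu
  have hflux : ∀ t, g.cspd i₀ t = g.spd i₀ t → (g.vol t : ℂ) • v' t =
      ((c₀ * r t : ℝ) : ℂ) • f' (g.time i₀ t) ξ - ((c₀ * ρ t : ℝ) : ℂ) • f (g.time i₀ t) ξ := by
    intro t ht
    have hsq := g.amp_sq i₀ t
    have hs := (g.spd_pos i₀ t).ne'
    simp only [v', ht, smul_add, smul_smul, ← Complex.ofReal_mul, sub_eq_add_neg, ← neg_smul, ← Complex.ofReal_neg]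
    congr 3
    · have : r t ≠ 0 := hr0 t
      field_simp
      linear_combination -c₀ * hsq
    · have : r t ≠ 0 := hr0 t
      simp only [ρ, slopeAmp, r] at this ⊢
      field_simp
      linear_combination (c₀ * deriv (g.amp i₀) t) * hsq
  have hode : ∀ t ∈ Ioo 0 g.L, HasDerivAt (fun x => (g.vol x : ℂ) • v' x)
      (-∑ j, g.K (ray i₀ k₀ n) j t (g.flux (ray i₀ k₀ n) v j t)) t := by
    intro t ht
    have hev : (fun x => (g.vol x : ℂ) • v' x) =ᶠ[𝓝 t]
        fun x => ((c₀ * r x : ℝ) : ℂ) • f' (g.time i₀ x) ξ - ((c₀ * ρ x : ℝ) : ℂ) • f (g.time i₀ x) ξ := by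
      filter_upwards [isOpen_Ioo.mem_nhds ht] with x hx
      exact hflux x (g.cspd_eq i₀ (Ioo_subset_Icc_self hx))
    have hρd : HasDerivAt ρ (deriv ρ t) t :=
      (((g.smooth_slopeAmp i₀).differentiable one_ne_zero) t).hasDerivAt
    refine HasDerivAt.congr_of_eventuallyEq ?_ hev
    refine (((((hr1 t).const_mul c₀).ofReal_comp).smul (hzf' t)).sub
      (((hρd.const_mul c₀).ofReal_comp).smul (hzf t))).congr_deriv ?_
    have hop : -∑ j, g.K (ray i₀ k₀ n) j t (g.flux (ray i₀ k₀ n) v j t) =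
        (-∑ j, g.K (ray i₀ k₀ n) j t * ∑ i, ((g.vol t * g.H t i j : ℝ) : ℂ) • g.K (ray i₀ k₀ n) i t) (v t) := by
      simp [flux, ContinuousLinearMap.mul_apply]
    rw [hop, g.symbol_eq i₀ k₀ n t]
    simp only [g.cspd_eq i₀ (Ioo_subset_Icc_self ht), ContinuousLinearMap.mul_apply, Pot.q, P, pot, height_time,
      v, add_apply, smul_apply, one_apply_eq_self, map_smul]
    have hd1 : deriv r t = ρ t * g.spd i₀ t := by
      simp only [ρ, slopeAmp, r]; field_simp [(g.spd_pos i₀ t).ne']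
    have hd2 : deriv ρ t = g.imped i₀ t * (r t * g.spd i₀ t) := by
      simp only [ρ, imped, r]
      field_simp [(g.spd_pos i₀ t).ne', (g.amp_pos i₀ t).ne']
    rw [hd1, hd2]
    have hsq : (r t : ℂ) ^ 2 = (g.vol t : ℂ) * (g.spd i₀ t : ℂ) := by
      rw [← Complex.ofReal_pow, ← Complex.ofReal_mul, g.amp_sq i₀ t]
    have hrC : (r t : ℂ) ≠ 0 := Complex.ofReal_ne_zero.2 (hr0 t)
    push_cast
    match_scalars <;> field_simp <;> first
      | ring1
      | linear_combination (c₀ : ℂ) * (g.spd i₀ t : ℂ) * (n : ℂ) ^ 2 * hsq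
      | linear_combination (c₀ : ℂ) * (g.spd i₀ t : ℂ) * (n : ℂ) * hsq
      | linear_combination (c₀ : ℂ) * (g.spd i₀ t : ℂ) * hsq
      | linear_combination (c₀ : ℂ) * (n : ℂ) ^ 2 * hsq
      | linear_combination (c₀ : ℂ) * (n : ℂ) * hsq
      | linear_combination (c₀ : ℂ) * hsq
      | linear_combination (n : ℂ) ^ 2 * hsq
      | linear_combination (n : ℂ) * hsq
      | linear_combination hsq
  have hprof : g.Prof (ray i₀ k₀ n) ξ v v' := by
    refine ⟨hvd, hv'c, ?_, ?_, hode⟩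
    · simp [v, g.time_zero, hf0, c₀, hr0 0]
    · simp [v, f, T, span, Pot.S_zero]
  rw [g.minEnergy_mode hprof, hflux 0 (g.cspd_eq i₀ (left_mem_Icc.2 g.posL.le)), g.time_zero, hf0]
  have hval : -(((c₀ * r 0 : ℝ) : ℂ) • f' 0 ξ - ((c₀ * ρ 0 : ℝ) : ℂ) • (1 : Op N) ξ) =
      ((g.amp i₀ 0 ^ 2 : ℝ) : ℂ) • Pot.resp P (g.slope₀ i₀) T (n : ℂ) ξ := by
    have hne : (g.amp i₀ 0 : ℂ) ≠ 0 := Complex.ofReal_ne_zero.2 (g.amp_pos i₀ 0).ne'
    simp only [Pot.resp, slope₀, f', Pot.W', M, add_apply, smul_apply, one_apply_eq_self, sub_zero, neg_mul,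
      neg_apply, c₀, r, ρ]
    push_cast
    simp only [Function.comp_apply, Pi.neg_apply]
    match_scalars <;> field_simp <;> ring
  rw [← hval]
  simp [rip, inner_neg_left]

end Geo

end

end Vale.Agent.P088
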