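import Mathlib
import Vale.Agent.P088.Cyl.Pencil

/-!
# P088: the cylinder is recovered from the pencils
-/

open MeasureTheory Set Filter
open scoped Topology

namespace Vale.Agent.P088

noncomputable section

variable {d N : ℕ}

namespace Geo

theorem op_ext {A B : Op N} (hA : star A = A) (hB : star B = B) (h : ∀ ξ, rip (A ξ) ξ = rip (B ξ) ξ) : A = B := by
  have hz : ((A - B : Op N) : Fibre N →ₗ[ℂ] Fibre N) = 0 := (inner_map_self_eq_zero _).1 fun ξ => by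
    have hs : star (A - B) = A - B := (star_sub (R := Op N) A B).trans (by rw [hA, hB])
    have hc : (starRingEnd ℂ) (inner ℂ ((A - B) ξ) ξ) = inner ℂ ((A - B) ξ) ξ := by
      rw [inner_conj_symm]
      conv_lhs => rw [← hs, ContinuousLinearMap.star_eq_adjoint, ContinuousLinearMap.adjoint_inner_right]
    refine Complex.ext ?_ (Complex.conj_eq_iff_im.1 hc)
    have := h ξ
    simp only [rip] at this
    simp [inner_sub_left, this]
  refine ContinuousLinearMap.ext fun ξ => sub_eq_zero.1 ?_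
  simpa using LinearMap.congr_fun hz ξ

theorem mode_smooth (k : Fin d → ℤ) (ξ : Fibre N) :
    (∀ n : ℕ, ContDiff ℝ n fun x : Fin d → ℝ => char k (Fin.cons 0 x) • ξ) ∧
      ∀ (x : Fin d → ℝ) (j : Fin d),
        char k (Fin.cons 0 (x + Pi.single j 1)) • ξ = char k (Fin.cons 0 x) • ξ := by
  refine ⟨fun n => ContDiff.smul ((contDiff_char k).comp ?_) contDiff_const, fun x j => ?_⟩
  · refine contDiff_pi.2 fun i => ?_
    induction i using Fin.cases with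
    | zero => simp only [Fin.cons_zero]; exact contDiff_const
    | succ i => simp only [Fin.cons_succ]; exact contDiff_apply ℝ ℝ i
  · rw [← cons_periodic, char_periodic]

theorem freq_neg (k : Fin d → ℤ) (j : Fin d) : freq (-k) j = -freq k j := by simp [freq]

theorem freq_zero (j : Fin d) : freq (0 : Fin d → ℤ) j = 0 := by simp [freq]

variable (g : Geo d N) (i₀ : Fin d)

theorem constPart_eq (k : Fin d → ℤ) (t : ℝ) :
    g.constPart i₀ k t = (-1 / ((g.spd i₀ t ^ 2 : ℝ) : ℂ)) •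
      ((∑ j, ∑ i, (g.H t i j : ℂ) * (freq k j * freq k i)) • (1 : Op N) +
        (2 : ℂ) • (∑ j, (∑ i, (g.H t i j : ℂ) * freq k i) • g.a j t) +
        ∑ j, ∑ i, (g.H t i j : ℂ) • (g.a j t * g.a i t)) := by
  rw [constPart]
  exact congrArg _ (quad_shift (𝔸 := Op N) (fun i j => (g.H t i j : ℂ)) (fun i j => by rw [g.H_symm]) (freq k)
    fun i => g.a i t)

theorem constPart_zero (t : ℝ) :
    g.constPart i₀ 0 t =
      (-1 / ((g.spd i₀ t ^ 2 : ℝ) : ℂ)) • ∑ j, ∑ i, (g.H t i j : ℂ) • (g.a j t * g.a i t) := by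
  have e : ∀ j, g.K 0 j t = g.a j t := fun j => ContinuousLinearMap.ext fun x => by simp [K, freq_zero]
  simp only [constPart, e]

theorem freq_quad_neg (k : Fin d → ℤ) (t : ℝ) :
    ∑ j, ∑ i, (g.H t i j : ℂ) * (freq (-k) j * freq (-k) i) = ∑ j, ∑ i, (g.H t i j : ℂ) * (freq k j * freq k i) :=
  Finset.sum_congr rfl fun j _ => Finset.sum_congr rfl fun i _ => by rw [freq_neg, freq_neg, neg_mul_neg]

theorem freq_lin_neg (k : Fin d → ℤ) (t : ℝ) :
    ∑ j, (∑ i, (g.H t i j : ℂ) * freq (-k) i) • g.a j t = -∑ j, (∑ i, (g.H t i j : ℂ) * freq k i) • g.a j t := by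
  rw [← Finset.sum_neg_distrib]
  refine Finset.sum_congr rfl fun j _ => ?_
  have e : ∑ i, (g.H t i j : ℂ) * freq (-k) i = -∑ i, (g.H t i j : ℂ) * freq k i := by
    simp [freq_neg, Finset.sum_neg_distrib]
  exact (congrArg (fun z : ℂ => z • g.a j t) e).trans (neg_smul (M := Op N) _ _)

/-- The part of the pencil quadratic in the frequency shift. -/
theorem even_part (k : Fin d → ℤ) (t : ℝ) :
    g.constPart i₀ k t + g.constPart i₀ (-k) t - (2 : ℂ) • g.constPart i₀ 0 t =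
      (2 * (-1 / ((g.spd i₀ t ^ 2 : ℝ) : ℂ)) * ∑ j, ∑ i, (g.H t i j : ℂ) * (freq k j * freq k i)) • (1 : Op N) := by
  rw [g.constPart_eq i₀ k t, g.constPart_eq i₀ (-k) t, g.constPart_zero i₀ t, g.freq_quad_neg, g.freq_lin_neg]
  module

/-- The part of the pencil linear in the frequency shift. -/
theorem odd_part (k : Fin d → ℤ) (t : ℝ) :
    g.constPart i₀ k t - g.constPart i₀ (-k) t =
      (4 * (-1 / ((g.spd i₀ t ^ 2 : ℝ) : ℂ))) • ∑ j, (∑ i, (g.H t i j : ℂ) * freq k i) • g.a j t := by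
  rw [g.constPart_eq i₀ k t, g.constPart_eq i₀ (-k) t, g.freq_quad_neg, g.freq_lin_neg]
  module

theorem inv_mul_apply (t : ℝ) (m j : Fin d) :
    ∑ l, g.G t m l * g.H t l j = if m = j then 1 else 0 := by
  have h := congrFun (congrFun (Matrix.mul_nonsing_inv (g.G t) (Ne.isUnit (g.det_pos t).ne')) m) j
  simpa [Matrix.mul_apply, H, Matrix.one_apply] using h

variable [NeZero N]

theorem same_pencils {g₁ g₂ : Geo d N} (hS : SameData g₁.L g₁.G g₁.a g₂.L g₂.G g₂.a) (i₀ : Fin d)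
    (k₀ : Fin d → ℤ) :
    g₁.span i₀ = g₂.span i₀ ∧ g₁.amp i₀ 0 = g₂.amp i₀ 0 ∧ g₁.slope₀ i₀ = g₂.slope₀ i₀ ∧
      ∀ s ∈ Icc 0 (g₁.span i₀), (g₁.pot i₀ k₀).B s = (g₂.pot i₀ k₀).B s ∧
        (g₁.pot i₀ k₀).D s = (g₂.pot i₀ k₀).D s := by
  set P₁ := g₁.pot i₀ k₀ with hP₁
  set P₂ := g₂.pot i₀ k₀ with hP₂
  set h₁ := g₁.slope₀ i₀ with hh₁
  set h₂ := g₂.slope₀ i₀ with hh₂
  set T₁ := g₁.span i₀ with hT₁
  set T₂ := g₂.span i₀ with hT₂
  have hs₁ : star h₁ = h₁ := g₁.star_slope₀ i₀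
  have hs₂ : star h₂ = h₂ := g₂.star_slope₀ i₀
  obtain ⟨R₁, C₁, w₁⟩ := (P₁.rev T₁).exists_growth (g₁.span_pos i₀)
  obtain ⟨R₂, C₂, w₂⟩ := (P₂.rev T₂).exists_growth (g₂.span_pos i₀)
  have hev : ∀ᶠ n : ℕ in atTop, IsUnit (P₁.W T₁ (n : ℂ)) ∧ IsUnit (P₂.W T₂ (n : ℂ)) ∧
      star (Pot.resp P₁ h₁ T₁ (n : ℂ)) = Pot.resp P₁ h₁ T₁ (n : ℂ) ∧
      star (Pot.resp P₂ h₂ T₂ (n : ℂ)) = Pot.resp P₂ h₂ T₂ (n : ℂ) := by
    filter_upwards [eventually_ge_atTop ⌈max R₁ R₂⌉₊] with n hn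
    have hn' : max R₁ R₂ ≤ ((n : ℂ)).re := by simpa using (Nat.le_ceil _).trans (Nat.cast_le.2 hn)
    have u1 : IsUnit (P₁.W T₁ (n : ℂ)) := (w₁.unit _ ((le_max_left _ _).trans hn')).1
    have u2 : IsUnit (P₂.W T₂ (n : ℂ)) := (w₂.unit _ ((le_max_right _ _).trans hn')).1
    have hn0 : star (n : ℂ) = (n : ℂ) := star_natCast n
    refine ⟨u1, u2, ?_, ?_⟩
    · have := Pot.resp_eq (Pot.Om_self (P := P₁) (T := T₁) hs₁ (n : ℂ)) (by rwa [hn0]) u1
      rw [hn0] at this; exact this.symm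
    · have := Pot.resp_eq (Pot.Om_self (P := P₂) (T := T₂) hs₂ (n : ℂ)) (by rwa [hn0]) u2
      rw [hn0] at this; exact this.symm
  have hq : ∀ᶠ n : ℕ in atTop, ((g₁.amp i₀ 0 ^ 2 : ℝ) : ℂ) • Pot.resp P₁ h₁ T₁ (n : ℂ) =
      ((g₂.amp i₀ 0 ^ 2 : ℝ) : ℂ) • Pot.resp P₂ h₂ T₂ (n : ℂ) := by
    filter_upwards [hev, g₁.minEnergy_ray i₀ k₀, g₂.minEnergy_ray i₀ k₀] with n hn e1 e2
    refine op_ext ?_ ?_ fun ξ => ?_
    · rw [star_smul, hn.2.2.1, Complex.star_def, Complex.conj_ofReal]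
    · rw [star_smul, hn.2.2.2, Complex.star_def, Complex.conj_ofReal]
    · simp only [smul_apply]
      rw [← e1 ξ, ← e2 ξ]
      exact hS _ (mode_smooth _ ξ).1 (mode_smooth _ ξ).2
  have ha : g₁.amp i₀ 0 = g₂.amp i₀ 0 := by
    have l : ∀ (P : Pot (Op N)) (h : Op N) (T : ℝ) (q : ℂ), 0 < T →
        Tendsto (fun n : ℕ => q • ((n : ℂ)⁻¹ • Pot.resp P h T (n : ℂ))) atTop (𝓝 (q • (1 : Op N))) := fun P h T q hT => by
      refine ((Pot.resp_asymp P h hT).comp tendsto_natCast_atTop_atTop).const_smul q |>.congr fun n => ?_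
      simp
    have := tendsto_nhds_unique ((l P₁ h₁ T₁ ((g₁.amp i₀ 0 ^ 2 : ℝ) : ℂ) (g₁.span_pos i₀)).congr' ?_)
      (l P₂ h₂ T₂ ((g₂.amp i₀ 0 ^ 2 : ℝ) : ℂ) (g₂.span_pos i₀))
    · have h2 := smul_left_injective ℂ (one_ne_zero (α := Op N)) this
      rw [Complex.ofReal_inj] at h2
      nlinarith [g₁.amp_pos i₀ 0, g₂.amp_pos i₀ 0]
    · filter_upwards [hq] with n hn
      rw [smul_comm, hn, smul_comm]
  have hdata : ∀ᶠ n : ℕ in atTop, Pot.Om P₁ P₂ h₁ h₂ T₁ T₂ (n : ℂ) = 0 := by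
    filter_upwards [hev, hq] with n hn e
    rw [ha] at e
    have hm : Pot.resp P₁ h₁ T₁ (n : ℂ) = Pot.resp P₂ h₂ T₂ (n : ℂ) :=
      smul_right_injective (Op N) (Complex.ofReal_ne_zero.2 (pow_ne_zero 2 (g₂.amp_pos i₀ 0).ne')) e
    have e1 : h₁ * P₁.W T₁ (n : ℂ) + P₁.W' T₁ (n : ℂ) = Pot.resp P₁ h₁ T₁ (n : ℂ) * P₁.W T₁ (n : ℂ) := by
      rw [Pot.resp, add_mul, mul_assoc, Ring.inverse_mul_cancel _ hn.1, mul_one]
    have e2 : h₂ * P₂.W T₂ (n : ℂ) + P₂.W' T₂ (n : ℂ) = Pot.resp P₂ h₂ T₂ (n : ℂ) * P₂.W T₂ (n : ℂ) := by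
      rw [Pot.resp, add_mul, mul_assoc, Ring.inverse_mul_cancel _ hn.2.1, mul_one]
    rw [Pot.Om, star_natCast, e1, e2, star_mul, hn.2.2.1, hm, mul_assoc, sub_self]
  obtain ⟨hT, hh, hBD⟩ := Pot.pencil_unique hs₁ hs₂ (g₁.span_pos i₀) (g₂.span_pos i₀) hdata
  exact ⟨hT, ha, hh, hBD⟩

omit [NeZero N] in
theorem hasDeriv_height (s : ℝ) :
    HasDerivAt (g.height i₀) (g.cspd i₀ (g.height i₀ s))⁻¹ s :=
  HasDerivAt.of_local_left_inverse (g.continuous_height i₀).continuousAt (g.hasDeriv_time i₀ _)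
    (g.spd_pos i₀ _).ne' (Eventually.of_forall (g.time_height i₀))

omit [NeZero N] in
theorem hasDeriv_amp (t : ℝ) : HasDerivAt (g.amp i₀) (g.slopeAmp i₀ t * g.spd i₀ t) t :=
  ((g.smooth_amp i₀).differentiable two_ne_zero t).hasDerivAt.congr_deriv
    (by rw [slopeAmp, div_mul_cancel₀ _ (g.spd_pos i₀ t).ne'])

omit [NeZero N] in
theorem hasDeriv_slopeAmp (t : ℝ) :
    HasDerivAt (g.slopeAmp i₀) (g.imped i₀ t * (g.amp i₀ t * g.spd i₀ t)) t :=
  ((g.smooth_slopeAmp i₀).differentiable one_ne_zero t).hasDerivAt.congr_deriv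
    (by rw [imped, div_mul_cancel₀ _ (mul_pos (g.amp_pos i₀ t) (g.spd_pos i₀ t)).ne'])

/-- Two cylinders with equal data coincide. -/
theorem unique {g₁ g₂ : Geo d N} (hd : 2 ≤ d) (hS : SameData g₁.L g₁.G g₁.a g₂.L g₂.G g₂.a) :
    g₁.L = g₂.L ∧ ∀ t ∈ Icc 0 g₁.L, g₁.G t = g₂.G t ∧ ∀ j, g₁.a j t = g₂.a j t := by
  obtain ⟨i₀⟩ : Nonempty (Fin d) := ⟨⟨0, by omega⟩⟩
  obtain ⟨hT, hamp, hslope, -⟩ := same_pencils hS i₀ 0
  set F : ℝ → ℝ := fun t => g₂.height i₀ (g₁.time i₀ t) with hF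
  have hFtime : ∀ t, g₂.time i₀ (F t) = g₁.time i₀ t := fun t => g₂.time_height i₀ _
  have hmem : ∀ t ∈ Icc 0 g₁.L, g₁.time i₀ t ∈ Icc 0 (g₁.span i₀) := fun t ht => by
    have h0 := (g₁.strictMono_time i₀).monotone ht.1
    rw [g₁.time_zero] at h0
    exact ⟨h0, (g₁.strictMono_time i₀).monotone ht.2⟩
  have hFmem : ∀ t ∈ Icc 0 g₁.L, F t ∈ Icc 0 g₂.L := fun t ht => by
    obtain ⟨a, b⟩ := hmem t ht
    refine ⟨(g₂.strictMono_time i₀).le_iff_le.1 ?_, (g₂.strictMono_time i₀).le_iff_le.1 ?_⟩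
    · rwa [hFtime, g₂.time_zero]
    · rw [hFtime]; exact b.trans hT.le
  have key : ∀ t ∈ Icc 0 g₁.L, ∀ k : Fin d → ℤ,
      g₁.constPart i₀ k t + (g₁.imped i₀ t : ℂ) • 1 = g₂.constPart i₀ k (F t) + (g₂.imped i₀ (F t) : ℂ) • 1 := by
    intro t ht k
    have h := ((same_pencils hS i₀ k).2.2.2 (g₁.time i₀ t) (hmem t ht)).2
    simp only [pot, height_time] at h
    exact h
  set lam : ℝ → ℝ := fun t => g₁.H t i₀ i₀ / g₂.H (F t) i₀ i₀ with hlam
  have hH : ∀ t ∈ Icc 0 g₁.L, ∀ l m, g₁.H t l m = lam t * g₂.H (F t) l m := by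
    intro t ht
    have e : ∀ k, g₁.constPart i₀ k t + g₁.constPart i₀ (-k) t - (2 : ℂ) • g₁.constPart i₀ 0 t =
        g₂.constPart i₀ k (F t) + g₂.constPart i₀ (-k) (F t) - (2 : ℂ) • g₂.constPart i₀ 0 (F t) := fun k => by
      linear_combination (norm := module) key t ht k + key t ht (-k) - (2 : ℂ) • key t ht 0
    have hq : ∀ k : Fin d → ℤ, (∑ j, ∑ i, g₁.H t i j * ((k j : ℝ) * (k i : ℝ))) / g₁.H t i₀ i₀ =
        (∑ j, ∑ i, g₂.H (F t) i j * ((k j : ℝ) * (k i : ℝ))) / g₂.H (F t) i₀ i₀ := by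
      intro k
      have h := e k
      rw [g₁.even_part, g₂.even_part] at h
      have h' := smul_left_injective ℂ (one_ne_zero (α := Op N)) h
      have conv : ∀ (g : Geo d N) (s : ℝ),
          (2 * (-1 / ((g.spd i₀ s ^ 2 : ℝ) : ℂ)) * ∑ j, ∑ i, (g.H s i j : ℂ) * (freq k j * freq k i)) =
            ((2 * ((∑ j, ∑ i, g.H s i j * ((k j : ℝ) * (k i : ℝ))) / g.H s i₀ i₀) : ℝ) : ℂ) := by
        intro g s
        have hne : ((g.H s i₀ i₀ : ℝ) : ℂ) ≠ 0 := Complex.ofReal_ne_zero.2 (g.H_pos s).diag_pos.ne'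
        have hsum : ∑ j, ∑ i, (g.H s i j : ℂ) * (freq k j * freq k i) =
            (2 * Real.pi * Complex.I) ^ 2 * ((∑ j, ∑ i, g.H s i j * ((k j : ℝ) * (k i : ℝ)) : ℝ) : ℂ) := by
          push_cast
          rw [Finset.mul_sum]
          refine Finset.sum_congr rfl fun j _ => ?_
          rw [Finset.mul_sum]
          exact Finset.sum_congr rfl fun i _ => by simp only [freq]; ring
        obtain ⟨S, hS'⟩ : ∃ S, (∑ j, ∑ i, g.H s i j * ((k j : ℝ) * (k i : ℝ))) = S := ⟨_, rfl⟩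
        rw [hsum, hS', g.spd_sq]
        push_cast
        field_simp
        linear_combination (-(S : ℂ) * 4) * Complex.I_sq
      rw [conv g₁ t, conv g₂ (F t), Complex.ofReal_inj] at h'
      linarith
    intro l m
    have h1 := hq (Pi.single l 1)
    have h2 := hq (Pi.single m 1)
    have h3 := hq (Pi.single l 1 + Pi.single m 1)
    simp [Pi.single_apply, add_mul, mul_add, Finset.sum_add_distrib] at h1 h2 h3
    rw [g₁.H_symm t m l, g₂.H_symm (F t) m l] at h3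
    have p1 : (0:ℝ) < g₁.H t i₀ i₀ := (g₁.H_pos t).diag_pos
    have p2 : (0:ℝ) < g₂.H (F t) i₀ i₀ := (g₂.H_pos (F t)).diag_pos
    simp only [lam]
    field_simp at h1 h2 h3 ⊢
    linarith
  have hlam0 : ∀ t, 0 < lam t := fun t => div_pos (g₁.H_pos t).diag_pos (g₂.H_pos (F t)).diag_pos
  have hspd : ∀ t, g₁.spd i₀ t ^ 2 = lam t * g₂.spd i₀ (F t) ^ 2 := fun t => by
    have p2 : (0:ℝ) < g₂.H (F t) i₀ i₀ := (g₂.H_pos (F t)).diag_pos
    rw [g₁.spd_sq, g₂.spd_sq, hlam]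
    field_simp
  have hα : ∀ t, (-1 / ((g₁.spd i₀ t ^ 2 : ℝ) : ℂ)) * (lam t : ℂ) = -1 / ((g₂.spd i₀ (F t) ^ 2 : ℝ) : ℂ) := by
    intro t
    rw [hspd t]
    have h1 : (lam t : ℂ) ≠ 0 := Complex.ofReal_ne_zero.2 (hlam0 t).ne'
    push_cast
    field_simp
  have ha : ∀ t ∈ Icc 0 g₁.L, ∀ j, g₁.a j t = g₂.a j (F t) := by
    intro t ht
    have e : ∀ k, g₁.constPart i₀ k t - g₁.constPart i₀ (-k) t =
        g₂.constPart i₀ k (F t) - g₂.constPart i₀ (-k) (F t) := fun k => by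
      linear_combination (norm := module) key t ht k - key t ht (-k)
    have h0 : ∀ l, ∑ j, (g₂.H (F t) l j : ℂ) • (g₁.a j t - g₂.a j (F t)) = 0 := by
      intro l
      have h := e (Pi.single l 1)
      rw [g₁.odd_part, g₂.odd_part] at h
      have hsum : ∀ (g : Geo d N) (s : ℝ), ∑ j, (∑ i, (g.H s i j : ℂ) * freq (Pi.single l 1) i) • g.a j s =
          (2 * (Real.pi : ℂ) * Complex.I) • ∑ j, (g.H s l j : ℂ) • g.a j s := by
        intro g s
        rw [Finset.smul_sum]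
        refine Finset.sum_congr rfl fun j _ => ?_
        rw [smul_smul]
        congr 1
        simp [freq, Pi.single_apply, apply_ite (fun z : ℤ => (z : ℂ))]
        ring
      rw [hsum, hsum] at h
      have hl : ∑ j, (g₁.H t l j : ℂ) • g₁.a j t = (lam t : ℂ) • ∑ j, (g₂.H (F t) l j : ℂ) • g₁.a j t := by
        rw [Finset.smul_sum]
        exact Finset.sum_congr rfl fun j _ => by rw [hH t ht l j, Complex.ofReal_mul, smul_smul]
      rw [hl, smul_smul, smul_smul, smul_smul,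
        show 4 * (-1 / ((g₁.spd i₀ t ^ 2 : ℝ) : ℂ)) * (2 * (Real.pi : ℂ) * Complex.I) * (lam t : ℂ) =
          4 * ((-1 / ((g₁.spd i₀ t ^ 2 : ℝ) : ℂ)) * (lam t : ℂ)) * (2 * (Real.pi : ℂ) * Complex.I) by ring, hα t] at h
      have hc : 4 * (-1 / ((g₂.spd i₀ (F t) ^ 2 : ℝ) : ℂ)) * (2 * (Real.pi : ℂ) * Complex.I) ≠ 0 := by
        have hs := pow_pos (g₂.spd_pos i₀ (F t)) 2
        simp [Real.pi_ne_zero, hs.ne', Complex.I_ne_zero, (g₂.spd_pos i₀ (F t)).ne']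
      simp only [smul_sub, Finset.sum_sub_distrib]
      exact sub_eq_zero.2 (smul_right_injective (Op N) hc h)
    intro j
    have h2 : ∑ l, (g₂.G (F t) j l : ℂ) • ∑ m, (g₂.H (F t) l m : ℂ) • (g₁.a m t - g₂.a m (F t)) =
        g₁.a j t - g₂.a j (F t) := by
      simp only [Finset.smul_sum, smul_smul]
      rw [Finset.sum_comm]
      simp only [← Finset.sum_smul, ← Complex.ofReal_mul, ← Complex.ofReal_sum, g₂.inv_mul_apply]
      simp [apply_ite Complex.ofReal, ite_smul]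
    exact sub_eq_zero.1 (h2.symm.trans
      (Finset.sum_eq_zero fun l _ => by rw [h0 l]; exact ContinuousLinearMap.ext fun x => by simp))
  have himp : ∀ t ∈ Icc 0 g₁.L, g₁.imped i₀ t = g₂.imped i₀ (F t) := by
    intro t ht
    have hc : g₁.constPart i₀ 0 t = g₂.constPart i₀ 0 (F t) := by
      rw [g₁.constPart_zero, g₂.constPart_zero, ← hα t, mul_smul, Finset.smul_sum (r := (lam t : ℂ))]
      congr 1
      refine Finset.sum_congr rfl fun j _ => ?_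
      rw [Finset.smul_sum]
      refine Finset.sum_congr rfl fun i _ => ?_
      rw [hH t ht i j, ha t ht j, ha t ht i, Complex.ofReal_mul, smul_smul]
    have h := key t ht 0
    rw [hc, add_right_inj] at h
    exact Complex.ofReal_inj.1 (smul_left_injective ℂ (one_ne_zero (α := Op N)) h)
  have hFd : ∀ t ∈ Icc 0 g₁.L, HasDerivAt F (g₁.spd i₀ t / g₂.spd i₀ (F t)) t := by
    intro t ht
    refine ((g₂.hasDeriv_height i₀ (g₁.time i₀ t)).comp t (g₁.hasDeriv_time i₀ t)).congr_deriv ?_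
    rw [g₁.cspd_eq i₀ ht, show g₂.height i₀ (g₁.time i₀ t) = F t from rfl, g₂.cspd_eq i₀ (hFmem t ht),
      div_eq_inv_mul]
  have hF0 : F 0 = 0 := by
    simp only [F, g₁.time_zero]
    conv_lhs => rw [← g₂.time_zero i₀]
    exact g₂.height_time i₀ 0
  set y : ℝ → ℝ := fun t => g₁.amp i₀ t - g₂.amp i₀ (F t) with hy
  set z : ℝ → ℝ := fun t => g₁.slopeAmp i₀ t - g₂.slopeAmp i₀ (F t) with hz
  have hyd : ∀ t ∈ Icc 0 g₁.L, HasDerivAt y (g₁.spd i₀ t * z t) t := fun t ht => by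
    refine ((g₁.hasDeriv_amp i₀ t).sub ((g₂.hasDeriv_amp i₀ (F t)).comp t (hFd t ht))).congr_deriv ?_
    have := (g₂.spd_pos i₀ (F t)).ne'
    simp only [z]; field_simp
  have hzd : ∀ t ∈ Icc 0 g₁.L, HasDerivAt z (g₁.spd i₀ t * g₁.imped i₀ t * y t) t := fun t ht => by
    refine ((g₁.hasDeriv_slopeAmp i₀ t).sub ((g₂.hasDeriv_slopeAmp i₀ (F t)).comp t (hFd t ht))).congr_deriv ?_
    have := (g₂.spd_pos i₀ (F t)).ne'
    rw [himp t ht]
    simp only [y]; field_simp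
  obtain ⟨Kb, hKb⟩ := (isCompact_Icc (a := (0:ℝ)) (b := g₁.L)).exists_bound_of_continuousOn
    (((g₁.smooth_spd i₀).continuous.mul (continuous_const.add (g₁.continuous_imped i₀))).continuousOn
      (s := Icc 0 g₁.L) : ContinuousOn (fun t => g₁.spd i₀ t * (1 + g₁.imped i₀ t)) (Icc 0 g₁.L))
  have hy0 : y 0 = 0 := by simp only [y, hF0]; linarith [hamp]
  have hz0 : z 0 = 0 := by
    have h := smul_left_injective ℂ (one_ne_zero (α := Op N)) hslope
    rw [Complex.ofReal_inj, hamp] at h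
    have := (g₂.amp_pos i₀ 0).ne'
    field_simp at h
    simp only [z, hF0, h, sub_self]
  have hzero : ∀ t ∈ Icc 0 g₁.L, y t = 0 := by
    intro t ht
    have hb := Vale.Agent.P136.gronwall_le (N := fun s => y s ^ 2 + z s ^ 2)
      (N' := fun s => 2 * (g₁.spd i₀ s * (1 + g₁.imped i₀ s)) * (y s * z s)) (K := Kb) (p := 0) (q := g₁.L)
      (fun s hs => (((hyd s hs).fun_pow 2).fun_add ((hzd s hs).fun_pow 2)).congr_deriv (by ring)) (fun s hs => ?_) ht
    · simp only [hy0, hz0] at hb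
      nlinarith [sq_nonneg (z t), sq_nonneg (y t)]
    · have h1 := hKb s hs
      rw [Real.norm_eq_abs] at h1
      have h2 : |2 * (y s * z s)| ≤ y s ^ 2 + z s ^ 2 := abs_le.2 ⟨by nlinarith [sq_nonneg (y s + z s)],
        by nlinarith [sq_nonneg (y s - z s)]⟩
      calc 2 * (g₁.spd i₀ s * (1 + g₁.imped i₀ s)) * (y s * z s)
          = (g₁.spd i₀ s * (1 + g₁.imped i₀ s)) * (2 * (y s * z s)) := by ring
        _ ≤ |g₁.spd i₀ s * (1 + g₁.imped i₀ s)| * |2 * (y s * z s)| := (le_abs_self _).trans (abs_mul _ _).le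
        _ ≤ Kb * (y s ^ 2 + z s ^ 2) := mul_le_mul h1 h2 (abs_nonneg _) ((abs_nonneg _).trans h1)
  have hlam1 : ∀ t ∈ Icc 0 g₁.L, lam t = 1 ∧ g₁.G t = g₂.G (F t) := by
    intro t ht
    have hmat : (g₁.G t)⁻¹ = lam t • (g₂.G (F t))⁻¹ := Matrix.ext fun i j => by
      simpa [H] using hH t ht i j
    have hq : g₁.vol t * g₁.spd i₀ t = g₂.vol (F t) * g₂.spd i₀ (F t) := by
      rw [← g₁.amp_sq, ← g₂.amp_sq, sub_eq_zero.1 (hzero t ht)]
    have hdet : (g₁.G t).det * lam t = (g₂.G (F t)).det := by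
      have h2 := congrArg (fun x => x ^ 2) hq
      simp only [mul_pow, vol, Real.sq_sqrt (g₁.det_pos t).le, Real.sq_sqrt (g₂.det_pos (F t)).le, hspd t] at h2
      have := pow_pos (g₂.spd_pos i₀ (F t)) 2
      nlinarith
    have hdet' := congrArg Matrix.det hmat
    rw [Matrix.det_nonsing_inv, Matrix.det_smul, Matrix.det_nonsing_inv, Fintype.card_fin, Ring.inverse_eq_inv,
      Ring.inverse_eq_inv, ← hdet] at hdet'
    have p1 := g₁.det_pos t
    have p3 := hlam0 t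
    have hpow : lam t ^ (d - 1) = 1 := by
      have e : lam t ^ d = lam t ^ (d - 1) * lam t := by rw [← pow_succ]; congr 1; omega
      rw [e] at hdet'
      field_simp at hdet'
      linarith
    have hone := (pow_eq_one_iff_of_nonneg p3.le (by omega)).1 hpow
    refine ⟨hone, ?_⟩
    rw [hone, one_smul] at hmat
    rw [← Matrix.nonsing_inv_nonsing_inv (g₁.G t) (Ne.isUnit (g₁.det_pos t).ne'), hmat,
      Matrix.nonsing_inv_nonsing_inv (g₂.G (F t)) (Ne.isUnit (g₂.det_pos (F t)).ne')]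
  have hFid : ∀ t ∈ Icc 0 g₁.L, F t = t := by
    intro t ht
    refine eq_of_has_deriv_right_eq (a := 0) (b := g₁.L) (f := F) (g := id) (f' := fun _ => (1:ℝ)) (fun s hs => ?_)
      (fun s hs => (hasDerivAt_id s).hasDerivWithinAt)
      (fun s hs => (hFd s hs).continuousAt.continuousWithinAt) continuousOn_id (by simp [hF0]) t ht
    have hs' : s ∈ Icc 0 g₁.L := Ico_subset_Icc_self hs
    refine ((hFd s hs').congr_deriv ?_).hasDerivWithinAt
    have h2 := hspd s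
    rw [(hlam1 s hs').1, one_mul] at h2
    rw [(pow_left_inj₀ (g₁.spd_pos i₀ s).le (g₂.spd_pos i₀ (F s)).le two_ne_zero).1 h2,
      div_self (g₂.spd_pos i₀ (F s)).ne']
  refine ⟨?_, fun t ht => ⟨?_, fun j => ?_⟩⟩
  · refine (g₂.strictMono_time i₀).injective ?_
    rw [← hFid g₁.L (right_mem_Icc.2 g₁.posL.le), hFtime]
    exact hT
  · rw [(hlam1 t ht).2, hFid t ht]
  · rw [ha t ht j, hFid t ht]

end Geo

end

end Vale.Agent.P088
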