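import Mathlib
import Vale.Agent.P088.Cyl.Recover

/-!
# P088: coefficients given on the interval extend to the line
-/

open MeasureTheory Set Filter
open scoped Topology Matrix

namespace Vale.Agent.P088

noncomputable section

variable {d N : ℕ}

theorem skew_half {𝔸 : Type*} [CStarAlgebra 𝔸] (x : 𝔸) :
    star ((1 / 2 : ℂ) • (x - star x)) = -((1 / 2 : ℂ) • (x - star x)) := by
  rw [star_smul, star_sub, star_star, ← smul_neg, neg_sub]
  simp

theorem exists_posDef_extension {L : ℝ} (hL : 0 < L) {G : ℝ → Matrix (Fin d) (Fin d) ℝ}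
    (hG : ∀ i j, ContDiff ℝ 2 fun t => G t i j) (hp : ∀ t ∈ Icc 0 L, (G t).PosDef) :
    ∃ G' : ℝ → Matrix (Fin d) (Fin d) ℝ, (∀ i j, ContDiff ℝ 2 fun t => G' t i j) ∧ (∀ t, (G' t).PosDef) ∧
      ∀ t ∈ Icc 0 L, G' t = G t := by
  set Φ : ℝ → (Fin d → ℝ) → ℝ := fun t x => ∑ i, ∑ j, x i * G t i j * x j with hΦ
  have hΦc : Continuous fun p : ℝ × (Fin d → ℝ) => Φ p.1 p.2 :=
    continuous_finsetSum _ fun i _ => continuous_finsetSum _ fun j _ =>
      (((continuous_apply i).comp continuous_snd).mul ((hG i j).continuous.comp continuous_fst)).mul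
        ((continuous_apply j).comp continuous_snd)
  have hdot : ∀ (M : Matrix (Fin d) (Fin d) ℝ) (x : Fin d → ℝ),
      star x ⬝ᵥ (M *ᵥ x) = ∑ i, ∑ j, x i * M i j * x j := fun M x => by
    simp [dotProduct, Matrix.mulVec, Finset.mul_sum, mul_assoc]
  have hsub : Icc 0 L ×ˢ Metric.sphere (0 : Fin d → ℝ) 1 ⊆ {p : ℝ × (Fin d → ℝ) | 0 < Φ p.1 p.2} := by
    rintro ⟨t, x⟩ ⟨ht, hx⟩
    have hx0 : x ≠ 0 := fun e => by simp [e] at hx
    have := (hp t ht).dotProduct_mulVec_pos hx0
    rw [hdot] at this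
    exact this
  obtain ⟨u, v, huo, -, hu, hv, huv⟩ :=
    generalized_tube_lemma isCompact_Icc (isCompact_sphere _ _) (isOpen_lt continuous_const hΦc) hsub
  obtain ⟨δ, hδ, hδu⟩ := isCompact_Icc.exists_thickening_subset_open huo hu
  let χ : ContDiffBump (L / 2) := ⟨L / 2, L / 2 + δ / 2, by linarith, by linarith⟩
  set G' : ℝ → Matrix (Fin d) (Fin d) ℝ := fun t i j =>
    χ t * ((G t i j + G t j i) / 2) + (1 - χ t) * (if i = j then 1 else 0) with hG'
  refine ⟨G', fun i j => ?_, fun t => ?_, fun t ht => ?_⟩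
  · exact (χ.contDiff.mul (((hG i j).add (hG j i)).div_const 2)).add
      ((contDiff_const.sub χ.contDiff).mul contDiff_const)
  · refine Matrix.PosDef.of_dotProduct_mulVec_pos (Matrix.IsHermitian.ext fun i j => ?_) fun x hx => ?_
    · simp [G', add_comm (G t i j), eq_comm]
    · have hsq : 0 < ∑ i, x i * x i := by
        obtain ⟨i, hi⟩ := Function.ne_iff.1 hx
        exact Finset.sum_pos' (fun i _ => mul_self_nonneg _) ⟨i, Finset.mem_univ i, mul_self_pos.2 hi⟩
      have e : star x ⬝ᵥ (G' t *ᵥ x) = χ t * Φ t x + (1 - χ t) * ∑ i, x i * x i := by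
        rw [hdot]
        simp only [G', mul_add, add_mul, Finset.sum_add_distrib]
        congr 1
        · have h2 : ∑ i, ∑ j, x i * G t j i * x j = Φ t x := by
            rw [hΦ, Finset.sum_comm]
            exact Finset.sum_congr rfl fun i _ => Finset.sum_congr rfl fun j _ => by ring
          have h3 : ∀ i j, x i * (χ t * ((G t i j + G t j i) / 2)) * x j =
              χ t / 2 * (x i * G t i j * x j) + χ t / 2 * (x i * G t j i * x j) := fun i j => by ring
          simp only [h3, Finset.sum_add_distrib, ← Finset.mul_sum, h2, Φ]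
          ring
        · rw [Finset.mul_sum]
          refine Finset.sum_congr rfl fun i _ => ?_
          simp [mul_comm (1 - χ t), mul_assoc, mul_left_comm]
      rw [e]
      rcases eq_or_lt_of_le (χ.nonneg : 0 ≤ χ t) with h0 | h0
      · rw [← h0]; simpa using hsq
      · have htu : t ∈ u := hδu <| by
          have hs : t ∈ Function.support χ := h0.ne'
          rw [χ.support_eq, Metric.mem_ball, Real.dist_eq, abs_lt] at hs
          simp only [χ] at hs
          rw [Metric.mem_thickening_iff]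
          by_cases h1 : t < 0
          · exact ⟨0, left_mem_Icc.2 hL.le, by rw [Real.dist_eq, sub_zero, abs_of_neg h1]; linarith⟩
          by_cases h2 : L < t
          · exact ⟨L, right_mem_Icc.2 hL.le, by rw [Real.dist_eq, abs_of_pos (by linarith)]; linarith⟩
          exact ⟨t, ⟨le_of_not_gt h1, le_of_not_gt h2⟩, by simpa using hδ⟩
        have hn : 0 < ‖x‖ := norm_pos_iff.2 hx
        have hsc : ‖x‖⁻¹ • x ∈ v := hv (by simp [norm_smul, hn.ne'])
        have hpos : 0 < Φ t (‖x‖⁻¹ • x) := huv (show (t, ‖x‖⁻¹ • x) ∈ u ×ˢ v from ⟨htu, hsc⟩)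
        have e2 : Φ t (‖x‖⁻¹ • x) = ‖x‖⁻¹ ^ 2 * Φ t x := by
          simp only [Φ, Pi.smul_apply, smul_eq_mul, Finset.mul_sum]
          exact Finset.sum_congr rfl fun i _ => Finset.sum_congr rfl fun j _ => by ring
        rw [e2] at hpos
        have hp1 : 0 < Φ t x := pos_of_mul_pos_right hpos (sq_nonneg _)
        exact add_pos_of_pos_of_nonneg (mul_pos h0 hp1) (mul_nonneg (sub_nonneg.2 χ.le_one) hsq.le)
  · have h1 : χ t = 1 := χ.one_of_mem_closedBall (by
      simp only [χ, Metric.mem_closedBall, Real.dist_eq, abs_le]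
      exact ⟨by linarith [ht.1], by linarith [ht.2]⟩)
    ext i j
    have hs := (hp t ht).isHermitian.apply i j
    simp only [star_trivial] at hs
    simp only [G', h1, hs, sub_self, zero_mul, add_zero, one_mul]
    ring

/-- A cylinder given on its interval is part of a cylinder given on the line. -/
theorem exists_geo {L : ℝ} (hL : 0 < L) {G : ℝ → Matrix (Fin d) (Fin d) ℝ}
    (hG : ∀ i j, ContDiff ℝ 2 fun t => G t i j) (hp : ∀ t ∈ Icc 0 L, (G t).PosDef) {a : Fin d → ℝ → Op N}
    (ha : ∀ j, ContDiff ℝ 1 (a j)) (hs : ∀ j, ∀ t ∈ Icc 0 L, star (a j t) = -a j t) :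
    ∃ g : Geo d N, g.L = L ∧ (∀ t ∈ Icc 0 L, g.G t = G t ∧ ∀ j, g.a j t = a j t) ∧
      ∀ f, minEnergy g.L g.G g.a f = minEnergy L G a f := by
  obtain ⟨G', hG', hp', he⟩ := exists_posDef_extension hL hG hp
  let g : Geo d N :=
    { L := L
      G := G'
      a := fun j t => (1 / 2 : ℂ) • (a j t - star (a j t))
      posL := hL
      smoothG := hG'
      pos := hp'
      smootha := fun j => ((ha j).sub ((starL' ℝ : Op N ≃L[ℝ] Op N).contDiff.comp (ha j))).const_smul (1 / 2 : ℂ)
      skew := fun j t => skew_half (𝔸 := Op N) (a j t) }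
  have hga : ∀ t ∈ Icc 0 L, ∀ j, g.a j t = a j t := fun t ht j => by
    change (1 / 2 : ℂ) • (a j t - star (a j t)) = a j t
    rw [hs j t ht, sub_neg_eq_add, ← two_smul ℂ, smul_smul]
    norm_num
  refine ⟨g, rfl, fun t ht => ⟨he t ht, hga t ht⟩, fun f => ?_⟩
  have hE : ∀ u, energy L G' g.a u = energy L G a u := fun u =>
    setIntegral_congr_fun (measurableSet_box L) fun z hz => by
      have ht := height_mem_box hz
      have hc : ∀ i, cov g.a u z i = cov a u z i := fun i => by rw [cov, cov, hga _ ht i]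
      simp only [dens, he _ ht, hc]
  simp only [minEnergy, g, hE]

end

end Vale.Agent.P088
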